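import Vale.Agent.P165.FF.Chain

/-!
# The sum over level chains in a cylinder

The three-letter separators turn a level chain into a single connection from the base vertex to
the product of the conjugated separators and the end point; the decoding shows that few chains
share one product.
-/

namespace Vale.Agent.P165.FF

open Finset

variable {κ : Type} [Fintype κ] [DecidableEq κ] {α : κ → Type} [∀ t, DecidableEq (α t)]
  [∀ t, Fintype (α t)] {O ι : Type} [DecidableEq O] [Fintype O] [Fintype ι]
  {G : SimpleGraph (FG α × O)} {nb : FG α × O → ι → FG α × O}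

/-- The product of the conjugated separators. -/
def conjProd (l : List ((FG α × O) × FG α)) : FG α :=
  (l.map fun q => q.1.1 * q.2 * (q.1.1)⁻¹).prod

omit [Fintype O] in
/-- A chain with separators is dominated by one connection. -/
theorem chainVal_le_T (hl : Labelling G nb) (hinv : Inv G) {p δ : ℝ} (h0 : 0 ≤ p) (h1 : p ≤ 1)
    (hδ0 : 0 ≤ δ) (hδ : ∀ x y : FG α × O, x.1⁻¹ * y.1 ∈ ball 3 → δ ≤ T nb p x y)
    (S : Finset (FG α × O)) (a : FG α × O) :
    ∀ (l : List ((FG α × O) × FG α)) (x : FG α × O), (∀ q ∈ l, q.2 ∈ ball 3) →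
      δ ^ l.length * chainVal nb S p x (l.map Prod.fst) a ≤
        T nb p x (conjProd l * a.1, a.2)
  | [], x, _ => by
      simp only [List.length_nil, pow_zero, one_mul, List.map_nil, chainVal, conjProd,
        List.prod_nil]
      exact le_T h0 h1 S x a
  | (z, D) :: l, x, hl' => by
      have ih := chainVal_le_T hl hinv h0 h1 hδ0 hδ S a l z fun q hq => hl' q (by simp [hq])
      have hD : D ∈ ball 3 := hl' (z, D) (by simp)
      simp only [List.length_cons, List.map_cons, chainVal]
      set P := conjProd l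
      have hP : conjProd ((z, D) :: l) = z.1 * D * (z.1)⁻¹ * P := by
        simp only [conjProd, List.map_cons, List.prod_cons, P]
      have e : T nb p z (P * a.1, a.2)
          = T nb p (z.1 * D, z.2) (conjProd ((z, D) :: l) * a.1, a.2) := by
        rw [← T_tr hl hinv (z.1 * D * (z.1)⁻¹) h0 h1 z (P * a.1, a.2), hP]
        simp [tr, mul_assoc]
      have hstep : δ ≤ T nb p z (z.1 * D, z.2) :=
        hδ z (z.1 * D, z.2) (by simpa using hD)
      calc δ ^ (l.length + 1) *
            (tauIn nb S p x z * chainVal nb S p z (l.map Prod.fst) a)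
          = (tauIn nb S p x z * δ) * (δ ^ l.length * chainVal nb S p z (l.map Prod.fst) a) := by
            rw [pow_succ]; ring
        _ ≤ (T nb p x z * T nb p z (z.1 * D, z.2)) *
              T nb p (z.1 * D, z.2) (conjProd ((z, D) :: l) * a.1, a.2) := by
            rw [← e]
            refine mul_le_mul (mul_le_mul (le_T h0 h1 S x z) hstep hδ0 (T_nonneg h0 h1 _ _)) ih
              (mul_nonneg (pow_nonneg hδ0 _) (chainVal_nonneg S h0 h1 _ _ _))
              (mul_nonneg (T_nonneg h0 h1 _ _) (T_nonneg h0 h1 _ _))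
        _ ≤ T nb p x (conjProd ((z, D) :: l) * a.1, a.2) :=
            (mul_le_mul_of_nonneg_right (T_trans hl h0 h1 x z _) (T_nonneg h0 h1 _ _)).trans
              (T_trans hl h0 h1 _ _ _)

omit [DecidableEq O] [Fintype O] in
/-- The end of a level chain with separators, and what it tells about the chain. -/
theorem exists_end (hrank : ∀ t, 2 ≤ Fintype.card (α t)) {n k : ℕ} (a : FG α × O)
    (ha : ∀ t, (a.1 t).norm ≤ n) (f : Fin k → FG α × O) (hf : ∀ i t, ((f i).1 t).norm ≤ n)
    (hlev : Level (List.ofFn f)) :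
    ∃ D : Fin k → FG α, (∀ i, D i ∈ ball 3) ∧
      conjProd (List.ofFn fun i => (f i, D i)) * a.1 ∈ ball ((k + 1) * (2 * n + 3)) ∧
      ∀ t, wordsOf t (List.ofFn f) ∈ readings k 2
        ((conjProd (List.ofFn fun i => (f i, D i)) * a.1) t).toWord (a.1 t).toWord := by
  have hws : ∀ t, ∀ w ∈ wordsOf t (List.ofFn f), Red w := fun t w hw => by
    obtain ⟨g, -, rfl⟩ := List.mem_map.1 hw
    exact red_toWord _
  choose l hl1 hl2 hl3 using fun t =>
    exists_sep (hrank t) (red_toWord (a.1 t)) (wordsOf t (List.ofFn f)) [] List.isChain_nil (hws t)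
  have hlen : ∀ t, (l t).length = k := fun t => by
    have := congrArg List.length (hl1 t)
    simpa [wordsOf] using this
  let D : Fin k → FG α := fun i t =>
    FreeGroup.mk ((l t)[(i : ℕ)]'(by rw [hlen]; exact i.2)).2
  have hfst : ∀ t (i : Fin k),
      ((l t)[(i : ℕ)]'(by rw [hlen]; exact i.2)).1 = ((f i).1 t).toWord := fun t i => by
    have hi : (i : ℕ) < ((l t).map Prod.fst).length := by simp [hlen]
    have h : ((l t).map Prod.fst)[(i : ℕ)]'hi
        = (wordsOf t (List.ofFn f))[(i : ℕ)]'(by simp [wordsOf]) := by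
      simp only [hl1 t]
    simpa [wordsOf] using h
  have hval : ∀ t, (conjProd (List.ofFn fun i => (f i, D i)) * a.1) t
      = FreeGroup.mk (code [] (l t) (a.1 t).toWord) := fun t => by
    have hm := mk_code (a.1 t).toWord (l t) []
    rw [← FreeGroup.one_eq_mk, one_mul] at hm
    rw [hm, Pi.mul_apply, FreeGroup.mk_toWord, conjProd]
    refine congrArg (· * a.1 t) ?_
    refine (map_list_prod (Pi.evalMonoidHom (fun t => FreeGroup (α t)) t) _).trans ?_
    refine congrArg List.prod (List.ext_getElem (by simp [hlen]) fun i hi hi' => ?_)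
    have hik : i < k := by simpa using hi
    simp only [List.getElem_map, List.getElem_ofFn, Pi.evalMonoidHom_apply, Pi.mul_apply,
      Pi.inv_apply, hfst t ⟨i, hik⟩, FreeGroup.mk_toWord, D]
  refine ⟨D, fun i => mem_ball.2 fun t => ?_, mem_ball.2 fun t => ?_, fun t => ?_⟩
  · exact FreeGroup.norm_mk_le.trans ((hl2 t _ (List.getElem_mem _)).1.1).le
  · rw [hval t, FreeGroup.norm, toWord_mk' (hl3 t)]
    have h := length_code (a.1 t).toWord (l t) [] n (Nat.zero_le _) (ha t) fun q hq => by
      obtain ⟨i, hi, rfl⟩ := List.mem_iff_getElem.1 hq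
      refine ⟨?_, (hl2 t _ (List.getElem_mem _)).1.1⟩
      rw [hfst t ⟨i, hlen t ▸ hi⟩]
      exact hf ⟨i, hlen t ▸ hi⟩ t
    rwa [hlen t] at h
  · rw [hval t, toWord_mk' (hl3 t)]
    have hm := mem_readings (red_toWord (a.1 t)) (fun q hq => (hl2 t q hq).1)
      (fun q hq => (hl2 t q hq).2) (m := 2) (l := l t) (by
        rw [hl1 t]
        exact (hlev t).imp asc_le_two desc_le_two)
    rwa [hl1 t, hlen t] at hm

/-- The sum over level chains in a cylinder, up to short connections. -/
theorem chain_sum (hl : Labelling G nb) (hinv : Inv G) (hrank : ∀ t, 2 ≤ Fintype.card (α t))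
    {p δ X : ℝ} (h0 : 0 ≤ p) (h1 : p ≤ 1) (hδ0 : 0 ≤ δ) (_hδ1 : δ ≤ 1)
    (hδ : ∀ x y : FG α × O, x.1⁻¹ * y.1 ∈ ball 3 → δ ≤ T nb p x y)
    (hX : ∀ (S F : Finset (FG α × O)) (x : FG α × O), ∑ y ∈ F, tauIn nb S p x y ≤ X)
    (n k : ℕ) (o : O) (a : FG α × O) (ha : a ∈ (cyl n : Finset (FG α × O))) :
    δ ^ (k + 2) * ∑ zs ∈ goodChains n k, chainVal nb (cyl n) p (1, o) zs a ≤
      (Fintype.card O : ℝ) ^ k *
        ((2 * ((8 * (Nat.log 2 ((k + 1) * (2 * n + 3)) + 1)) ^ k *
          ((k + 1) * (2 * n + 3) + 1) ^ 2) : ℕ) : ℝ) ^ Fintype.card κ *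
        ((((k + 1) * (2 * n + 3) : ℕ) : ℝ) + 1) ^ Fintype.card κ := by
  classical
  set B := (k + 1) * (2 * n + 3) with hB
  set R := 2 * ((8 * (Nat.log 2 B + 1)) ^ k * (B + 1) ^ 2) with hR
  rw [mem_cyl] at ha
  -- every chain has an end
  have hend : ∀ zs ∈ (goodChains n k : Finset (List (FG α × O))), ∃ g ∈ (ball B : Finset (FG α)),
      zs.length = k ∧ (∀ t, wordsOf t zs ∈ readings k 2 (g t).toWord (a.1 t).toWord) ∧
        δ ^ k * chainVal nb (cyl n) p (1, o) zs a ≤ T nb p (1, o) (g, a.2) := by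
    intro zs hzs
    obtain ⟨hzs, hlev⟩ := mem_filter.1 hzs
    obtain ⟨f, hf, rfl⟩ := mem_image.1 hzs
    obtain ⟨D, hD, hball, hread⟩ := exists_end hrank a ha f
      (fun i => mem_cyl.1 (Fintype.mem_piFinset.1 hf i)) hlev
    refine ⟨_, hball, List.length_ofFn, hread, ?_⟩
    have h := chainVal_le_T hl hinv h0 h1 hδ0 hδ (cyl n) a (List.ofFn fun i => (f i, D i)) (1, o)
      fun q hq => by
        obtain ⟨i, rfl⟩ := List.mem_ofFn.1 hq
        exact hD i
    rw [List.length_ofFn, List.map_ofFn] at h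
    exact h
  choose! e he hlen hread hval using hend
  -- few chains share an end
  set F : Finset (List (FG α × O)) := goodChains n k
  have hfib : ∀ g ∈ (ball B : Finset (FG α)),
      ((F.filter fun zs => e zs = g).card : ℝ) ≤
        (Fintype.card O : ℝ) ^ k * (R : ℝ) ^ Fintype.card κ := by
    intro g hg
    set U : Finset (List O) := (Fintype.piFinset fun _ : Fin k => (univ : Finset O)).image List.ofFn
    set W := Fintype.piFinset fun t => readings k 2 (g t).toWord (a.1 t).toWord
    have hc : (F.filter fun zs => e zs = g).card ≤ (U ×ˢ W).card := by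
      refine card_le_card_of_injOn (fun zs => (zs.map Prod.snd, fun t => wordsOf t zs)) ?_ ?_
      · intro zs hzs
        obtain ⟨hzF, rfl⟩ := mem_filter.1 (mem_coe.1 hzs)
        refine mem_coe.2 (mem_product.2 ⟨?_, Fintype.mem_piFinset.2 fun t => hread zs hzF t⟩)
        obtain ⟨f, -, rfl⟩ := mem_image.1 (mem_filter.1 hzF).1
        exact mem_image.2 ⟨fun i => (f i).2, Fintype.mem_piFinset.2 fun _ => mem_univ _,
          List.map_ofFn.symm⟩
      · intro zs hzs zs' hzs' heq
        simp only [Prod.mk.injEq] at heq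
        obtain ⟨hO, hW⟩ := heq
        have hl' : zs.length = zs'.length := by simpa using congrArg List.length hO
        refine List.ext_getElem hl' fun i hi hi' => Prod.ext (funext fun t => ?_) ?_
        · refine FreeGroup.toWord_injective ?_
          have := congrArg (fun l => l[i]?) (congrFun hW t)
          simpa [wordsOf, hi, hi'] using this
        · have := congrArg (fun l => l[i]?) hO
          simpa [hi, hi'] using this
    have hU : U.card ≤ Fintype.card O ^ k := card_image_le.trans (by simp)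
    have hW : W.card ≤ R ^ Fintype.card κ := by
      rw [Fintype.card_piFinset]
      refine (prod_le_prod' fun t _ => card_readings (B := B) ?_).trans (by rw [prod_const, card_univ])
      exact mem_ball.1 hg t
    rw [card_product] at hc
    calc ((F.filter fun zs => e zs = g).card : ℝ) ≤ ((U.card * W.card : ℕ) : ℝ) := Nat.cast_le.2 hc
      _ ≤ ((Fintype.card O ^ k * R ^ Fintype.card κ : ℕ) : ℝ) :=
          Nat.cast_le.2 (Nat.mul_le_mul hU hW)
      _ = _ := by push_cast; ring
  set C : ℝ := (Fintype.card O : ℝ) ^ k * (R : ℝ) ^ Fintype.card κ with hC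
  calc δ ^ (k + 2) * ∑ zs ∈ F, chainVal nb (cyl n) p (1, o) zs a
      = δ ^ 2 * ∑ zs ∈ F, δ ^ k * chainVal nb (cyl n) p (1, o) zs a := by
        rw [← mul_sum, ← mul_assoc, ← pow_add, add_comm 2 k]
    _ ≤ δ ^ 2 * ∑ zs ∈ F, T nb p (1, o) (e zs, a.2) :=
        mul_le_mul_of_nonneg_left (sum_le_sum hval) (sq_nonneg δ)
    _ = δ ^ 2 * ∑ g ∈ ball B, ((F.filter fun zs => e zs = g).card : ℝ) *
          T nb p (1, o) (g, a.2) := by
        rw [← sum_fiberwise_of_maps_to (g := e) he]
        refine congrArg _ (sum_congr rfl fun g _ => ?_)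
        rw [sum_congr rfl fun zs hzs => show T nb p (1, o) (e zs, a.2) = T nb p (1, o) (g, a.2) by
          rw [(mem_filter.1 hzs).2], sum_const, nsmul_eq_mul]
    _ ≤ δ ^ 2 * ∑ g ∈ ball B, C * T nb p (1, o) (g, a.2) :=
        mul_le_mul_of_nonneg_left (sum_le_sum fun g hg =>
          mul_le_mul_of_nonneg_right (hfib g hg) (T_nonneg h0 h1 _ _)) (sq_nonneg δ)
    _ = C * (δ ^ 2 * ∑ g ∈ ball B, T nb p (1, o) (g, a.2)) := by rw [← mul_sum]; ring
    _ ≤ C * ((B : ℝ) + 1) ^ Fintype.card κ :=
        mul_le_mul_of_nonneg_left (ball_sum hl hinv hrank h0 h1 hδ0 hδ hX B o a.2) (by positivity)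

end Vale.Agent.P165.FF
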