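import Vale.Agent.P165.FF.Base

/-!
# Products of free groups: Haagerup's inequality

Convolution by a function supported on `ball R` has `ℓ²` norm at most `(R + 1) ^ (2 m)` times the
`ℓ²` norm of the function, `m` the number of factors.
-/

namespace Vale.Agent.P165.FF

open Finset

variable {κ : Type} {α : κ → Type} [Fintype κ] [DecidableEq κ] [∀ t, DecidableEq (α t)]
  [∀ t, Fintype (α t)]

/-- Haagerup's inequality on a product of free groups. -/
theorem haagerup (R : ℕ) (A B : Finset (FG α)) (hA : A ⊆ ball R) (f h : FG α → ℝ)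
    (out : Finset (FG α)) :
    ∑ g ∈ out, (∑ a ∈ A.filter (fun a => a⁻¹ * g ∈ B), f a * h (a⁻¹ * g)) ^ 2 ≤
      ((R : ℝ) + 1) ^ (4 * Fintype.card κ) * (∑ a ∈ A, f a ^ 2) * ∑ b ∈ B, h b ^ 2 := by
  -- a class records, in each factor, the prefix shared with `g` and the rest of `a`
  set l : FG α → FG α → κ → ℕ × ℕ := fun g a t =>
    (lcp (a t).toWord (g t).toWord, (a t).toWord.length - lcp (a t).toWord (g t).toWord) with hl
  set K : Finset (κ → ℕ × ℕ) :=
    Fintype.piFinset fun _ => Finset.range (R + 1) ×ˢ Finset.range (R + 1) with hK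
  set F : (κ → ℕ × ℕ) → FG α → Finset (FG α) :=
    fun k g => (A.filter fun a => a⁻¹ * g ∈ B).filter fun a => l g a = k with hF
  set P : (κ → ℕ × ℕ) → FG α → ∀ t, List (α t × Bool) :=
    fun k a t => (a t).toWord.take (k t).1 with hP
  set S : (κ → ℕ × ℕ) → FG α → ∀ t, List (α t × Bool) :=
    fun k b t => (b t).toWord.drop (k t).2 with hS
  set S' : (κ → ℕ × ℕ) → FG α → ∀ t, List (α t × Bool) :=
    fun k g t => (g t).toWord.drop (k t).1 with hS'
  have hcard : (K.card : ℝ) = ((R : ℝ) + 1) ^ (2 * Fintype.card κ) := by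
    simp [hK, Fintype.card_piFinset, pow_mul, sq]
  -- inside a class the two kept parts are determined by `g`
  have hsplit : ∀ k g, ∀ a ∈ F k g, P k a = P k g ∧ S k (a⁻¹ * g) = S' k g := by
    intro k g a ha
    obtain ⟨-, rfl⟩ := Finset.mem_filter.1 ha
    refine ⟨funext fun t => (lcp_spec (a t).toWord (g t).toWord).2.2.1, funext fun t => ?_⟩
    simp only [hS, hS', hl, Pi.mul_apply, Pi.inv_apply, toWord_inv_mul, rel]
    exact List.drop_left' (by rw [FreeGroup.invRev_length, List.length_drop])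
  have hinj : ∀ k g g', P k g = P k g' → S' k g = S' k g' → g = g' := by
    intro k g g' h1 h2
    funext t
    apply FreeGroup.toWord_injective
    rw [← List.take_append_drop (k t).1 (g t).toWord,
      ← List.take_append_drop (k t).1 (g' t).toWord]
    exact congrArg₂ (· ++ ·) (congrFun h1 t) (congrFun h2 t)
  have hclass : ∀ k, ∑ g ∈ out, (∑ a ∈ F k g, f a * h (a⁻¹ * g)) ^ 2 ≤
      (∑ a ∈ A, f a ^ 2) * ∑ b ∈ B, h b ^ 2 := by
    intro k
    calc ∑ g ∈ out, (∑ a ∈ F k g, f a * h (a⁻¹ * g)) ^ 2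
        ≤ ∑ g ∈ out, ∑ q ∈ A ×ˢ B,
            if P k q.1 = P k g ∧ S k q.2 = S' k g then f q.1 ^ 2 * h q.2 ^ 2 else 0 := by
          refine Finset.sum_le_sum fun g _ => ?_
          refine (Finset.sum_mul_sq_le_sq_mul_sq _ _ _).trans ?_
          rw [← Finset.sum_filter, ← Finset.sum_image (f := fun b => h b ^ 2)
            (g := fun a => a⁻¹ * g) (fun a _ a' _ e => inv_injective (mul_right_cancel e)),
            Finset.sum_mul_sum, ← Finset.sum_product']
          refine Finset.sum_le_sum_of_subset_of_nonneg (fun q hq => ?_) fun _ _ _ => by positivity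
          obtain ⟨ha, hb⟩ := Finset.mem_product.1 hq
          obtain ⟨a', ha', he⟩ := Finset.mem_image.1 hb
          have h1 := (Finset.mem_filter.1 (Finset.mem_filter.1 ha).1).1
          have h2 := (Finset.mem_filter.1 (Finset.mem_filter.1 ha').1).2
          refine Finset.mem_filter.2 ⟨Finset.mem_product.2 ⟨h1, he ▸ h2⟩, (hsplit k g _ ha).1, ?_⟩
          rw [← he]
          exact (hsplit k g _ ha').2
      _ = ∑ q ∈ A ×ˢ B, ((out.filter fun g => P k q.1 = P k g ∧ S k q.2 = S' k g).card : ℝ) *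
            (f q.1 ^ 2 * h q.2 ^ 2) := by
          rw [Finset.sum_comm]
          refine Finset.sum_congr rfl fun q _ => ?_
          rw [← Finset.sum_filter, Finset.sum_const, nsmul_eq_mul]
      _ ≤ ∑ q ∈ A ×ˢ B, 1 * (f q.1 ^ 2 * h q.2 ^ 2) := by
          refine Finset.sum_le_sum fun q _ => mul_le_mul_of_nonneg_right ?_ (by positivity)
          norm_cast
          refine Finset.card_le_one.2 fun g hg g' hg' => ?_
          simp only [Finset.mem_filter] at hg hg'
          exact hinj k g g' (hg.2.1.symm.trans hg'.2.1) (hg.2.2.symm.trans hg'.2.2)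
      _ = _ := by simp only [one_mul]; rw [Finset.sum_mul_sum, Finset.sum_product]
  have hmaps : ∀ g, ∀ a ∈ A.filter (fun a => a⁻¹ * g ∈ B), l g a ∈ K := by
    intro g a ha
    simp only [hK, Fintype.mem_piFinset, Finset.mem_product, Finset.mem_range, hl]
    intro t
    have h1 : (a t).toWord.length ≤ R := mem_ball.1 (hA (Finset.mem_filter.1 ha).1) t
    have h2 := (lcp_spec (a t).toWord (g t).toWord).1
    omega
  calc ∑ g ∈ out, (∑ a ∈ A.filter (fun a => a⁻¹ * g ∈ B), f a * h (a⁻¹ * g)) ^ 2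
      = ∑ g ∈ out, (∑ k ∈ K, ∑ a ∈ F k g, f a * h (a⁻¹ * g)) ^ 2 := by
        refine Finset.sum_congr rfl fun g _ => ?_
        rw [Finset.sum_fiberwise_of_maps_to (hmaps g)]
    _ ≤ ∑ g ∈ out, (K.card : ℝ) * ∑ k ∈ K, (∑ a ∈ F k g, f a * h (a⁻¹ * g)) ^ 2 :=
        Finset.sum_le_sum fun g _ => sq_sum_le_card_mul_sum_sq
    _ = (K.card : ℝ) * ∑ k ∈ K, ∑ g ∈ out, (∑ a ∈ F k g, f a * h (a⁻¹ * g)) ^ 2 := by
        rw [← Finset.mul_sum, Finset.sum_comm]
    _ ≤ (K.card : ℝ) * ∑ _k ∈ K, (∑ a ∈ A, f a ^ 2) * ∑ b ∈ B, h b ^ 2 :=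
        mul_le_mul_of_nonneg_left (Finset.sum_le_sum fun k _ => hclass k) (Nat.cast_nonneg _)
    _ = _ := by
        rw [Finset.sum_const, nsmul_eq_mul, hcard,
          show 4 * Fintype.card κ = 2 * Fintype.card κ + 2 * Fintype.card κ by ring, pow_add]
        ring

end Vale.Agent.P165.FF
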