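import Vale.Agent.P165.FF.Chain
import Vale.Agent.P165.FF.Haagerup

/-!
# A small exit kernel makes connection probabilities square summable

The connection probabilities within regions of at most `s + 1` vertices are at most those within a
cylinder plus the convolution of the exit kernel with those of regions of at most `s` vertices, so
Haagerup's inequality bounds their `ℓ²` norms uniformly in `s`.
-/

namespace Vale.Agent.P165.FF

open Finset

variable {κ : Type} [Fintype κ] [DecidableEq κ] {α : κ → Type} [∀ t, DecidableEq (α t)]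
  [∀ t, Fintype (α t)] {O ι : Type} [DecidableEq O] [Fintype O] [Fintype ι]
  {G : SimpleGraph (FG α × O)} {nb : FG α × O → ι → FG α × O}

/-- A small exit kernel makes connection probabilities square summable. -/
theorem square_summable (hl : Labelling G nb) (hinv : Inv G) {L : ℕ}
    (hL : ∀ x y, G.Adj x y → ∀ t, ((x.1⁻¹ * y.1) t).norm ≤ L) {p : ℝ} (h0 : 0 ≤ p) (h1 : p ≤ 1)
    (n : ℕ)
    (hsmall : ((n : ℝ) + L + 1) ^ (4 * Fintype.card κ) *
      ∑ g ∈ ball (n + L), kernelB nb n p g ^ 2 ≤ 1 / 4) :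
    ∃ K : ℝ, ∀ (x : FG α × O) (S F : Finset (FG α × O)), ∑ y ∈ F, tauIn nb S p x y ^ 2 ≤ K := by
  classical
  set Q : Finset (FG α × O) := cyl n with hQ
  set C : FG α → ℝ := fun γ => ∑ o : O, ∑ o', tauIn nb Q p (1, o) (γ, o') with hC
  let T' : ℕ → O → O → FG α → ℝ := fun s o o' γ =>
    ⨆ S : {S : Finset (FG α × O) // S.card ≤ s}, tauIn nb S.1 p (1, o) (γ, o')
  set Φ : ℕ → FG α → ℝ := fun s γ => ∑ o : O, ∑ o', T' s o o' γ with hΦ
  have hT : ∀ {s o o' γ} {S : Finset (FG α × O)}, S.card ≤ s →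
      tauIn nb S p (1, o) (γ, o') ≤ T' s o o' γ := fun {s o o' γ S} h =>
    le_ciSup (f := fun S : {S : Finset (FG α × O) // S.card ≤ s} =>
      tauIn nb S.1 p (1, o) (γ, o'))
      ⟨1, by rintro _ ⟨S, rfl⟩; exact tauIn_le_one S.1 h0 h1 _ _⟩ ⟨S, h⟩
  have hT0 : ∀ s o o' γ, 0 ≤ T' s o o' γ := fun s o o' γ =>
    (tauIn_nonneg ∅ h0 h1 _ _).trans (hT (by simp))
  have hΦ0 : ∀ s γ, 0 ≤ Φ s γ := fun s γ => sum_nonneg fun _ _ => sum_nonneg fun _ _ => hT0 ..
  have hne : ∀ s, Nonempty {S : Finset (FG α × O) // S.card ≤ s} := fun s => ⟨⟨∅, by simp⟩⟩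
  -- a region without the starting point
  have hout : ∀ o (S : Finset (FG α × O)) y, ((1 : FG α), o) ∉ S →
      tauIn nb S p (1, o) y ≤ tauIn nb Q p (1, o) y := by
    intro o S y hS
    by_cases he : ((1 : FG α), o) = y
    · rw [← he, tauIn_self, tauIn_self]
    · rw [tauIn_eq_zero he (Or.inl hS)]; exact tauIn_nonneg _ h0 h1 _ _
  have hzero : ∀ γ, Φ 0 γ ≤ C γ := fun γ => sum_le_sum fun o _ => sum_le_sum fun o' _ =>
    have := hne 0
    ciSup_le fun S => hout o S.1 _ (by simp [Finset.card_eq_zero.1 (Nat.le_zero.1 S.2)])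
  have hball : ∀ a ∈ Q, ∀ j, (nb a j).1 ∈ ball (n + L) := by
    intro a ha j
    refine mem_ball.2 fun t => ?_
    have h := hL a (nb a j) ((hl.adj _ _).2 ⟨j, rfl⟩) t
    rw [Pi.mul_apply, Pi.inv_apply] at h
    have h' := FreeGroup.norm_mul_le (a.1 t) ((a.1 t)⁻¹ * (nb a j).1 t)
    rw [mul_inv_cancel_left] at h'
    exact h'.trans (add_le_add (mem_cyl.1 ha t) h)
  have hrec : ∀ s γ, Φ (s + 1) γ ≤
      C γ + ∑ g ∈ ball (n + L), kernelB nb n p g * Φ s (g⁻¹ * γ) := by
    intro s γ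
    set W : O → FG α × O → ι → ℝ := fun o a j =>
      if nb a j ∉ Q then tauIn nb Q p (1, o) a else 0 with hW
    have hW0 : ∀ o a j, 0 ≤ W o a j := fun o a j => by
      simp only [hW]; split_ifs <;> first | exact le_rfl | exact tauIn_nonneg _ h0 h1 _ _
    have hone : ∀ o o', T' (s + 1) o o' γ ≤ tauIn nb Q p (1, o) (γ, o') +
        p * ∑ a ∈ Q, ∑ j, W o a j * T' s (nb a j).2 o' ((nb a j).1⁻¹ * γ) := by
      intro o o'
      have := hne (s + 1)
      refine ciSup_le fun ⟨S, hS⟩ => ?_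
      have hnn : 0 ≤ p * ∑ a ∈ Q, ∑ j, W o a j * T' s (nb a j).2 o' ((nb a j).1⁻¹ * γ) :=
        mul_nonneg h0 (sum_nonneg fun _ _ => sum_nonneg fun _ _ => mul_nonneg (hW0 ..) (hT0 ..))
      by_cases hx : ((1 : FG α), o) ∈ S
      swap
      · exact (hout o S _ hx).trans (le_add_of_nonneg_right hnn)
      refine (tauIn_exit hl S Q (mem_cyl.2 fun t => by simp) (γ, o') h0 h1).trans ?_
      refine add_le_add le_rfl (mul_le_mul_of_nonneg_left
        (sum_le_sum fun a _ => sum_le_sum fun j _ => ?_) h0)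
      simp only [hW]
      by_cases hb : nb a j ∉ Q
      · rw [if_pos hb, if_pos hb]
        refine mul_le_mul_of_nonneg_left ?_ (tauIn_nonneg _ h0 h1 _ _)
        rw [← tauIn_tr hl hinv (nb a j).1⁻¹]
        simp only [tr, inv_mul_cancel]
        refine hT (card_image_le.trans ?_)
        rw [card_erase_of_mem hx]
        omega
      · rw [if_neg hb, if_neg hb, zero_mul]
    refine (sum_le_sum fun o _ => sum_le_sum fun o' _ => hone o o').trans ?_
    simp only [sum_add_distrib]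
    refine add_le_add le_rfl ?_
    calc ∑ o : O, ∑ o', p * ∑ a ∈ Q, ∑ j, W o a j * T' s (nb a j).2 o' ((nb a j).1⁻¹ * γ)
        = p * ∑ o : O, ∑ a ∈ Q, ∑ j, W o a j * ∑ o', T' s (nb a j).2 o' ((nb a j).1⁻¹ * γ) := by
          simp only [mul_sum]
          refine sum_congr rfl fun o _ => ?_
          rw [sum_comm]
          exact sum_congr rfl fun a _ => sum_comm
      _ ≤ p * ∑ o : O, ∑ a ∈ Q, ∑ j, W o a j * Φ s ((nb a j).1⁻¹ * γ) := by
          refine mul_le_mul_of_nonneg_left (sum_le_sum fun o _ => sum_le_sum fun a _ =>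
            sum_le_sum fun j _ => mul_le_mul_of_nonneg_left ?_ (hW0 ..)) h0
          exact single_le_sum (f := fun o'' => ∑ o', T' s o'' o' ((nb a j).1⁻¹ * γ))
            (fun _ _ => sum_nonneg fun _ _ => hT0 ..) (mem_univ _)
      _ = ∑ g ∈ ball (n + L), kernelB nb n p g * Φ s (g⁻¹ * γ) := by
          simp only [kernelB, mul_assoc, ← mul_sum]
          congr 1
          simp only [sum_mul]
          rw [sum_comm (s := ball (n + L))]
          refine sum_congr rfl fun o _ => ?_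
          rw [sum_comm (s := ball (n + L))]
          refine sum_congr rfl fun a ha => ?_
          rw [sum_comm (s := ball (n + L))]
          refine sum_congr rfl fun j _ => ?_
          simp only [hW, ite_and, ite_mul, zero_mul]
          by_cases hb : nb a j ∉ (cyl n : Finset (FG α × O))
          · simp [hQ, hb, hball a ha j]
          · simp [hQ, hb]
  have hCs : ∀ γ, γ ∉ ball n → C γ = 0 := fun γ hγ => sum_eq_zero fun o _ => sum_eq_zero fun o' _ =>
    tauIn_eq_zero (fun he => hγ (by injection he with e1; subst e1; simp [mem_ball]))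
      (Or.inr fun h => hγ (mem_ball.2 (mem_cyl.1 h))) p
  set C2 : ℝ := ∑ γ ∈ ball n, C γ ^ 2 with hC2
  have hC20 : 0 ≤ C2 := sum_nonneg fun _ _ => sq_nonneg _
  have hCle : ∀ Out : Finset (FG α), ∑ γ ∈ Out, C γ ^ 2 ≤ C2 := fun Out =>
    calc ∑ γ ∈ Out, C γ ^ 2 ≤ ∑ γ ∈ Out ∪ ball n, C γ ^ 2 :=
          sum_le_sum_of_subset_of_nonneg subset_union_left fun _ _ _ => sq_nonneg _
      _ = C2 := (sum_subset subset_union_right fun γ _ h => by simp [hCs γ h]).symm
  have hsq : ∀ s (Out : Finset (FG α)), ∑ γ ∈ Out, Φ s γ ^ 2 ≤ 4 * C2 := by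
    intro s
    induction s with
    | zero =>
      intro Out
      refine (sum_le_sum fun γ _ => pow_le_pow_left₀ (hΦ0 ..) (hzero γ) 2).trans ?_
      linarith [hCle Out]
    | succ s ih =>
      intro Out
      set A : Finset (FG α) := ball (n + L)
      set I : Finset (FG α) := (A ×ˢ Out).image fun q => q.1⁻¹ * q.2 with hI
      have hH := haagerup (n + L) A I Subset.rfl (kernelB nb n p) (Φ s) Out
      have hall : ∀ γ ∈ Out, A.filter (fun a => a⁻¹ * γ ∈ I) = A := fun γ hγ =>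
        filter_true_of_mem fun a ha => mem_image.2 ⟨(a, γ), mem_product.2 ⟨ha, hγ⟩, rfl⟩
      rw [sum_congr rfl fun γ hγ => by rw [hall γ hγ]] at hH
      have hc : (((n + L : ℕ) : ℝ) + 1) ^ (4 * Fintype.card κ) *
          ∑ g ∈ A, kernelB nb n p g ^ 2 ≤ 1 / 4 := by
        push_cast; exact hsmall
      have hconv : ∑ γ ∈ Out, (∑ g ∈ A, kernelB nb n p g * Φ s (g⁻¹ * γ)) ^ 2 ≤ C2 := by
        refine hH.trans ((mul_le_mul hc (ih I) (sum_nonneg fun _ _ => sq_nonneg _)
          (by norm_num)).trans (le_of_eq ?_))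
        ring
      calc ∑ γ ∈ Out, Φ (s + 1) γ ^ 2
          ≤ ∑ γ ∈ Out, (2 * C γ ^ 2 + 2 * (∑ g ∈ A, kernelB nb n p g * Φ s (g⁻¹ * γ)) ^ 2) := by
            refine sum_le_sum fun γ _ => (pow_le_pow_left₀ (hΦ0 ..) (hrec s γ) 2).trans ?_
            linarith [sq_nonneg (C γ - ∑ g ∈ A, kernelB nb n p g * Φ s (g⁻¹ * γ))]
        _ ≤ 4 * C2 := by
            rw [sum_add_distrib, ← mul_sum, ← mul_sum]
            linarith [hCle Out]
  refine ⟨Fintype.card O * (4 * C2), fun x S F => ?_⟩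
  calc ∑ y ∈ F, tauIn nb S p x y ^ 2
      ≤ ∑ y ∈ F, Φ S.card (x.1⁻¹ * y.1) ^ 2 := by
        refine sum_le_sum fun y _ => pow_le_pow_left₀ (tauIn_nonneg _ h0 h1 _ _) ?_ 2
        rw [← tauIn_tr hl hinv x.1⁻¹]
        simp only [tr, inv_mul_cancel]
        refine (hT card_image_le).trans ?_
        exact (single_le_sum (f := fun o' => T' S.card x.2 o' (x.1⁻¹ * y.1)) (fun _ _ => hT0 ..)
          (mem_univ y.2)).trans (single_le_sum (f := fun o => ∑ o', T' S.card o o' (x.1⁻¹ * y.1))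
            (fun _ _ => sum_nonneg fun _ _ => hT0 ..) (mem_univ x.2))
    _ ≤ ∑ q ∈ (F.image fun y => x.1⁻¹ * y.1) ×ˢ (univ : Finset O), Φ S.card q.1 ^ 2 := by
        rw [← sum_image (f := fun q : FG α × O => Φ S.card q.1 ^ 2)
          (g := fun y : FG α × O => (x.1⁻¹ * y.1, y.2))
          fun a _ b _ h => by simpa [Prod.ext_iff] using h]
        refine sum_le_sum_of_subset_of_nonneg (fun q hq => ?_) fun _ _ _ => sq_nonneg _
        obtain ⟨y, hy, rfl⟩ := mem_image.1 hq
        exact mem_product.2 ⟨mem_image_of_mem _ hy, mem_univ _⟩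
    _ ≤ Fintype.card O * (4 * C2) := by
        simp only [sum_product, sum_const, nsmul_eq_mul, card_univ, ← mul_sum]
        exact mul_le_mul_of_nonneg_left (hsq _ _) (Nat.cast_nonneg _)

end Vale.Agent.P165.FF
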