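import Vale.Agent.P165.Finite

/-!
# Finite product measures: Harris, van den Berg–Kesten and sprinkling
-/

namespace Vale.Agent.P165.FF

open Finset

variable {α : Type} [DecidableEq α]

open Classical in
/-- The indicator of a proposition, as a real number. -/
noncomputable def ind (P : Prop) : ℝ := if P then 1 else 0

omit [DecidableEq α] in
theorem ind_nonneg (P : Prop) : 0 ≤ ind P := by unfold ind; split_ifs <;> norm_num

omit [DecidableEq α] in
theorem ind_le_one (P : Prop) : ind P ≤ 1 := by unfold ind; split_ifs <;> norm_num

omit [DecidableEq α] in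
theorem ind_mono {P Q : Prop} (h : P → Q) : ind P ≤ ind Q := by
  unfold ind
  split_ifs with hP hQ <;> first | exact absurd (h hP) hQ | norm_num

omit [DecidableEq α] in
theorem avg_nonneg (E : Finset α) {p : ℝ} (h0 : 0 ≤ p) (h1 : p ≤ 1) {f : Finset α → ℝ}
    (hf : ∀ η, η ⊆ E → 0 ≤ f η) : 0 ≤ avg E p f :=
  sum_nonneg fun η hη => mul_nonneg (wt_nonneg E h0 h1 η) (hf η (mem_powerset.1 hη))

theorem avg_insert {E : Finset α} {e : α} (he : e ∉ E) (p : ℝ) (f : Finset α → ℝ) :
    avg (insert e E) p f = (1 - p) * avg E p f + p * avg E p fun η => f (insert e η) := by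
  simp only [avg]
  rw [sum_powerset_insert he, mul_sum, mul_sum]
  congr 1 <;> refine sum_congr rfl fun η hη => ?_
  · have hsub := card_le_card (mem_powerset.1 hη)
    rw [wt, wt, card_insert_of_notMem he,
      show E.card + 1 - η.card = (E.card - η.card) + 1 by omega, pow_succ]
    ring
  · have hne : e ∉ η := fun h => he (mem_powerset.1 hη h)
    rw [wt, wt, card_insert_of_notMem he, card_insert_of_notMem hne,
      show E.card + 1 - (η.card + 1) = E.card - η.card by omega, pow_succ]
    ring

/-- Harris' inequality. -/
theorem harris (E : Finset α) {p : ℝ} (h0 : 0 ≤ p) (h1 : p ≤ 1) :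
    ∀ f g : Finset α → ℝ, Monotone f → Monotone g →
      avg E p f * avg E p g ≤ avg E p fun η => f η * g η := by
  induction E using Finset.induction with
  | empty => intro f g _ _; simp [avg, wt]
  | @insert e E he ih =>
    intro f g hf hg
    rw [avg_insert he, avg_insert he, avg_insert he]
    have hins : Monotone (fun η : Finset α => insert e η) := fun a b h => insert_subset_insert e h
    have h2 := ih f g hf hg
    have h3 := ih (fun η => f (insert e η)) (fun η => g (insert e η)) (hf.comp hins) (hg.comp hins)
    have h4 : avg E p f ≤ avg E p fun η => f (insert e η) :=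
      avg_mono E h0 h1 fun η _ => hf (subset_insert e η)
    have h5 : avg E p g ≤ avg E p fun η => g (insert e η) :=
      avg_mono E h0 h1 fun η _ => hg (subset_insert e η)
    nlinarith [mul_le_mul_of_nonneg_left h2 (sub_nonneg.2 h1), mul_le_mul_of_nonneg_left h3 h0,
      mul_nonneg (mul_nonneg h0 (sub_nonneg.2 h1))
        (mul_nonneg (sub_nonneg.2 h4) (sub_nonneg.2 h5))]

/-- An event closed under adding edges. -/
def Inc (A : Finset α → Prop) : Prop := ∀ η η', η ⊆ η' → A η → A η'

/-- Two events occur on disjoint sets of edges. -/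
def box (A B : Finset α → Prop) (η : Finset α) : Prop :=
  ∃ K K', K ⊆ η ∧ K' ⊆ η ∧ Disjoint K K' ∧ A K ∧ B K'

/-- The van den Berg–Kesten inequality for increasing events. -/
theorem bk (E : Finset α) {p : ℝ} (h0 : 0 ≤ p) (h1 : p ≤ 1) :
    ∀ A B : Finset α → Prop, Inc A → Inc B →
      avg E p (fun η => ind (box A B η))
        ≤ avg E p (fun η => ind (A η)) * avg E p (fun η => ind (B η)) := by
  induction E using Finset.induction with
  | empty =>
    intro A B _ _
    simp only [avg, powerset_empty, sum_singleton, wt, card_empty, pow_zero, Nat.sub_self, one_mul]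
    by_cases h : box A B ∅
    · obtain ⟨K, K', hK, hK', -, hA, hB⟩ := h
      rw [subset_empty] at hK hK'
      subst hK; subst hK'
      have e1 : ind (A ∅) = 1 := by simp [ind, hA]
      have e2 : ind (B ∅) = 1 := by simp [ind, hB]
      rw [e1, e2, one_mul]
      exact ind_le_one _
    · simp only [ind, h, if_false]
      exact mul_nonneg (ind_nonneg _) (ind_nonneg _)
  | @insert e E he ih =>
    intro A B hA hB
    rw [avg_insert he, avg_insert he, avg_insert he]
    set A' : Finset α → Prop := fun η => A (insert e η)
    set B' : Finset α → Prop := fun η => B (insert e η)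
    have hA' : Inc A' := fun a b h => hA _ _ (insert_subset_insert e h)
    have hB' : Inc B' := fun a b h => hB _ _ (insert_subset_insert e h)
    set X0 := avg E p fun η => ind (box A B η)
    set X1 := avg E p fun η => ind (box A B (insert e η))
    set a0 := avg E p fun η => ind (A η)
    set a1 := avg E p fun η => ind (A (insert e η))
    set b0 := avg E p fun η => ind (B η)
    set b1 := avg E p fun η => ind (B (insert e η))
    have h00 : X0 ≤ a0 * b0 := ih A B hA hB
    have hsplit : ∀ η, e ∉ η → box A B (insert e η) → box A' B η ∨ box A B' η := by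
      rintro η hη ⟨K, K', hK, hK', hd, hKA, hKB⟩
      by_cases heK : e ∈ K
      · refine Or.inl ⟨K.erase e, K', ?_, ?_, hd.mono_left (erase_subset _ _), ?_, hKB⟩
        · exact fun x hx => mem_of_mem_insert_of_ne (hK (mem_of_mem_erase hx)) (ne_of_mem_erase hx)
        · exact fun x hx => mem_of_mem_insert_of_ne (hK' hx)
            fun h => disjoint_left.1 hd heK (h ▸ hx)
        · exact hA _ _ (by rw [insert_erase heK]) hKA
      · refine Or.inr ⟨K, K'.erase e, ?_, ?_, hd.mono_right (erase_subset _ _), hKA, ?_⟩
        · exact fun x hx => mem_of_mem_insert_of_ne (hK hx) fun h => heK (h ▸ hx)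
        · exact fun x hx => mem_of_mem_insert_of_ne (hK' (mem_of_mem_erase hx)) (ne_of_mem_erase hx)
        · exact hB _ _ (fun x hx => by
            by_cases h : x = e
            · exact mem_insert.2 (Or.inl h)
            · exact mem_insert_of_mem (mem_erase.2 ⟨h, hx⟩)) hKB
    have h11 : X1 ≤ a1 * b1 := by
      refine le_trans (avg_mono E h0 h1 fun η hη => ind_mono fun h => ?_) (ih A' B' hA' hB')
      rcases hsplit η (fun hh => he (hη hh)) h with ⟨K, K', u1, u2, u3, u4, u5⟩ | ⟨K, K', u1, u2, u3, u4, u5⟩
      · exact ⟨K, K', u1, u2, u3, u4, hB _ _ (subset_insert _ _) u5⟩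
      · exact ⟨K, K', u1, u2, u3, hA _ _ (subset_insert _ _) u4, u5⟩
    have h10 : X0 + X1 ≤ a1 * b0 + a0 * b1 := by
      refine le_trans ?_ (add_le_add (ih A' B hA' hB) (ih A B' hA hB'))
      simp only [X0, X1]
      rw [← avg_add, ← avg_add]
      refine avg_mono E h0 h1 fun η hη => ?_
      by_cases hb : box A B η
      · obtain ⟨K, K', u1, u2, u3, u4, u5⟩ := hb
        have q1 : box A' B η := ⟨K, K', u1, u2, u3, hA _ _ (subset_insert _ _) u4, u5⟩
        have q2 : box A B' η := ⟨K, K', u1, u2, u3, u4, hB _ _ (subset_insert _ _) u5⟩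
        simp only [ind, if_pos q1, if_pos q2]
        exact add_le_add (ind_le_one _) (ind_le_one _)
      · have e0 : ind (box A B η) = 0 := by simp [ind, hb]
        rw [e0, zero_add]
        have n1 := ind_nonneg (box A' B η)
        have n2 := ind_nonneg (box A B' η)
        by_cases u : box A B (insert e η)
        · have e1 : ind (box A B (insert e η)) = 1 := by simp [ind, u]
          rw [e1]
          rcases hsplit η (fun hh => he (hη hh)) u with v | v
          · have e2 : ind (box A' B η) = 1 := by simp [ind, v]
            linarith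
          · have e2 : ind (box A B' η) = 1 := by simp [ind, v]
            linarith
        · have e1 : ind (box A B (insert e η)) = 0 := by simp [ind, u]
          linarith
    nlinarith [mul_le_mul_of_nonneg_left h00 (mul_nonneg (sub_nonneg.2 h1) (sub_nonneg.2 h1)),
      mul_le_mul_of_nonneg_left h11 (mul_nonneg h0 h0),
      mul_le_mul_of_nonneg_left h10 (mul_nonneg h0 (sub_nonneg.2 h1))]

/-- Expectations of increasing functions grow with `p`. -/
theorem avg_mono_p (E : Finset α) {p p' : ℝ} (h0 : 0 ≤ p) (h : p ≤ p') (h1 : p' ≤ 1) :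
    ∀ f : Finset α → ℝ, Monotone f → avg E p f ≤ avg E p' f := by
  induction E using Finset.induction with
  | empty => intro f _; simp [avg, wt]
  | @insert e E he ih =>
    intro f hf
    rw [avg_insert he, avg_insert he]
    have hins : Monotone (fun η : Finset α => insert e η) := fun a b h => insert_subset_insert e h
    have h2 := ih f hf
    have h3 := ih (fun η => f (insert e η)) (hf.comp hins)
    have h4 : avg E p f ≤ avg E p fun η => f (insert e η) :=
      avg_mono E h0 (h.trans h1) fun η _ => hf (subset_insert e η)
    nlinarith [mul_le_mul_of_nonneg_left h2 (sub_nonneg.2 h1),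
      mul_le_mul_of_nonneg_left h3 (h0.trans h), mul_nonneg (sub_nonneg.2 h) (sub_nonneg.2 h4)]

/-- Two independent layers make one layer. -/
theorem avg_union (E : Finset α) (p q : ℝ) : ∀ f : Finset α → ℝ,
    avg E (1 - (1 - p) * (1 - q)) f = avg E q fun ξ => avg E p fun η => f (η ∪ ξ) := by
  induction E using Finset.induction with
  | empty => intro f; simp [avg, wt]
  | @insert e E he ih =>
    intro f
    simp only [avg_insert he, avg_add, avg_mul, ih f, ih fun η => f (insert e η)]
    have h1 : ∀ η ξ : Finset α, insert e η ∪ ξ = insert e (η ∪ ξ) := fun η ξ => insert_union _ _ _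
    have h2 : ∀ η ξ : Finset α, η ∪ insert e ξ = insert e (η ∪ ξ) := fun η ξ => union_insert _ _ _
    simp only [h1, h2, insert_idem]
    ring

/-- Adding edges can only help an increasing function. -/
theorem avg_mono_set {A E : Finset α} (hA : A ⊆ E) {p : ℝ} (h0 : 0 ≤ p) (h1 : p ≤ 1)
    {f : Finset α → ℝ} (hf : Monotone f) : avg A p f ≤ avg E p f := by
  have h := avg_split hA p f fun _ => (1 : ℝ)
  simp only [mul_one, avg_one] at h
  rw [← h]
  exact avg_mono E h0 h1 fun η _ => hf inter_subset_left

omit [DecidableEq α] in
theorem monotone_ind {A : Finset α → Prop} (hA : Inc A) : Monotone fun η => ind (A η) :=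
  fun _ _ h => ind_mono (hA _ _ h)

end Vale.Agent.P165.FF
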