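import Vale.Agent.P165.Main
import Vale.Agent.P165.FF.BK

/-!
# Square-summable connection probabilities exclude uniqueness

If the connection probabilities inside finite regions are square-summable, uniformly in the
source and in the region, then from every vertex only finitely many vertices are reached with
probability above a given `ε`, and so there cannot be exactly one infinite cluster.
-/

namespace Vale.Agent.P165.FF

open MeasureTheory ProbabilityTheory Finset

variable {V ι : Type} {G : SimpleGraph V} {nb : V → ι → V}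

variable [DecidableEq V] [Fintype ι]

namespace Region

open Classical in
/-- `x` and `y` are joined by open edges inside `S`. -/
def reachIn (G : SimpleGraph V) (nb : V → ι → V) (S : Finset V)
    (x y : V) : Set (Config G) :=
  ⋃ η ∈ (inE nb S).powerset.filter (fun η => cl η x y), pattern G (inE nb S) η

theorem inE_adj (hl : Labelling G nb) {S : Finset V} {e : Sym2 V} (he : e ∈ inE nb S) :
    e ∈ G.edgeSet :=
  touch_adj hl.listing (mem_filter.1 he).1

theorem inE_mono (nb : V → ι → V) {S S' : Finset V} (h : S ⊆ S') : inE nb S ⊆ inE nb S' := by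
  intro e he
  rw [inE, mem_filter] at he ⊢
  refine ⟨?_, sym2_mono h he.2⟩
  obtain ⟨q, hq, rfl⟩ := mem_image.1 he.1
  exact mem_touch (h (mem_product.1 hq).1) q.2

theorem tauIn_mono_region (nb : V → ι → V) {S S' : Finset V} (h : S ⊆ S') {p : ℝ} (h0 : 0 ≤ p)
    (h1 : p ≤ 1) (x y : V) : tauIn nb S p x y ≤ tauIn nb S' p x y := by
  classical
  refine avg_mono_set (inE_mono nb h) h0 h1 fun η η' hη => ?_
  show (if cl η x y then (1 : ℝ) else 0) ≤ if cl η' x y then 1 else 0
  by_cases hc : cl η x y
  · rw [if_pos hc, if_pos (cl_mono hη hc)]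
  · rw [if_neg hc]
    split_ifs <;> norm_num

theorem tauIn_nonneg (nb : V → ι → V) (S : Finset V) {p : ℝ} (h0 : 0 ≤ p)
    (h1 : p ≤ 1) (x y : V) : 0 ≤ tauIn nb S p x y :=
  avg_nonneg _ h0 h1 fun η _ => by split_ifs <;> norm_num

/-- The pattern sums compute the connection probability inside a finite region. -/
theorem real_reachIn (hl : Labelling G nb) (p : unitInterval) (S : Finset V) (x y : V) :
    (perc G p).real (reachIn G nb S x y) = tauIn nb S p x y := by
  classical
  have hF : ↑(inE nb S) ⊆ G.edgeSet := fun e he => inE_adj hl he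
  set good := (inE nb S).powerset.filter fun η => cl η x y with hgood
  have hdisj : Set.PairwiseDisjoint (↑good) (fun η => pattern G (inE nb S) η) := by
    intro η hη η' hη' hne
    refine Set.disjoint_left.2 fun ω h h' => hne ?_
    simp only [hgood, coe_filter, Set.mem_ofPred_eq, mem_powerset] at hη hη'
    ext e
    constructor
    · intro he; exact (h' ⟨e, hF (hη.1 he)⟩ (hη.1 he)).1 ((h ⟨e, hF (hη.1 he)⟩ (hη.1 he)).2 he)
    · intro he; exact (h ⟨e, hF (hη'.1 he)⟩ (hη'.1 he)).1 ((h' ⟨e, hF (hη'.1 he)⟩ (hη'.1 he)).2 he)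
  have hset : reachIn G nb S x y = ⋃ η ∈ good, pattern G (inE nb S) η := rfl
  rw [hset, measureReal_biUnion_finset hdisj fun η hη =>
    (real_pattern p hF (mem_powerset.1 (mem_filter.1 hη).1)).1]
  rw [tauIn, avg, hgood, sum_filter]
  refine sum_congr rfl fun η hη => ?_
  rw [mul_ite, mul_one, mul_zero]
  exact if_congr Iff.rfl (real_pattern p hF (mem_powerset.1 hη)).2 rfl

/-- Connections inside a larger region. -/
theorem reachIn_mono (hl : Labelling G nb) {S S' : Finset V} (h : S ⊆ S') (x y : V) :
    reachIn G nb S x y ⊆ reachIn G nb S' x y := by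
  classical
  intro ω hω
  simp only [reachIn, Set.mem_iUnion, mem_filter, mem_powerset, exists_prop] at hω ⊢
  obtain ⟨η, ⟨hη, hc⟩, hω⟩ := hω
  set η' := (inE nb S').filter fun e => ∃ he : e ∈ G.edgeSet, ω ⟨e, he⟩ = true with hη'
  refine ⟨η', ⟨filter_subset _ _, cl_mono ?_ hc⟩, ?_⟩
  · intro e he
    refine mem_filter.2 ⟨inE_mono nb h (hη he), inE_adj hl (hη he), ?_⟩
    exact (hω ⟨e, _⟩ (hη he)).2 he
  · intro e he
    simp only [hη', mem_filter]
    exact ⟨fun hω' => ⟨he, e.2, hω'⟩, fun ⟨_, _, hω'⟩ => hω'⟩

/-- An open connection lies in some finite region. -/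
theorem reach_subset_iUnion (hl : Labelling G nb) (x y : V) :
    reach G x y ⊆ ⋃ S : Finset V, reachIn G nb S x y := by
  classical
  intro ω hω
  obtain ⟨w⟩ := (show (openGraph G ω).Reachable x y from hω)
  refine Set.mem_iUnion.2 ⟨w.support.toFinset, ?_⟩
  set S := w.support.toFinset with hS
  simp only [reachIn, Set.mem_iUnion, mem_filter, mem_powerset, exists_prop]
  set η := (inE nb S).filter fun e => ∃ he : e ∈ G.edgeSet, ω ⟨e, he⟩ = true with hη
  refine ⟨η, ⟨filter_subset _ _, ⟨w.transfer _ fun e he => ?_⟩⟩, ?_⟩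
  · induction e using Sym2.ind with
    | _ a b =>
      obtain ⟨hG, hopen⟩ : ∃ h : G.Adj a b, ω ⟨s(a, b), h⟩ = true :=
        w.adj_of_mem_edges he
      refine (SimpleGraph.fromEdgeSet_adj _).2 ⟨?_, hG.ne⟩
      refine mem_coe.2 (mem_filter.2 ⟨mem_inE hl ?_ ?_ hG, hG, hopen⟩)
      · exact List.mem_toFinset.2 (w.fst_mem_support_of_mem_edges he)
      · exact List.mem_toFinset.2 (w.snd_mem_support_of_mem_edges he)
  · intro e he
    simp only [hη, mem_filter]
    exact ⟨fun hω' => ⟨he, e.2, hω'⟩, fun ⟨_, _, hω'⟩ => hω'⟩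

/-- The connection probability is the supremum over finite regions. -/
theorem real_reach_le_of_tauIn [Countable V] (hl : Labelling G nb) (p : unitInterval) {x y : V}
    {ε : ℝ} (hτ : ∀ S : Finset V, tauIn nb S p x y ≤ ε) :
    (perc G p).real (reach G x y) ≤ ε := by
  have hε : 0 ≤ ε := (tauIn_nonneg nb ∅ p.2.1 p.2.2 x y).trans (hτ ∅)
  have hdir : Directed (· ⊆ ·) fun S : Finset V => reachIn G nb S x y := fun S S' =>
    ⟨S ∪ S', reachIn_mono hl subset_union_left x y, reachIn_mono hl subset_union_right x y⟩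
  rw [measureReal_def]
  refine ENNReal.toReal_le_of_le_ofReal hε ?_
  refine (measure_mono (reach_subset_iUnion hl x y)).trans ?_
  rw [hdir.measure_iUnion]
  refine iSup_le fun S => ?_
  rw [ENNReal.le_ofReal_iff_toReal_le (measure_ne_top _ _) hε]
  exact le_of_eq_of_le (real_reachIn hl p S x y) (hτ S)

/-- Square-summability leaves only finitely many vertices at connection probability above `ε`. -/
theorem finite_large_of_sq {p : ℝ} (h0 : 0 ≤ p) (h1 : p ≤ 1) {x : V} {K : ℝ}
    (h : ∀ S F : Finset V, ∑ y ∈ F, tauIn nb S p x y ^ 2 ≤ K) {ε : ℝ} (hε : 0 < ε) :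
    {y | ∃ S : Finset V, ε < tauIn nb S p x y}.Finite := by
  by_contra hinf
  obtain ⟨n, hn⟩ := exists_nat_gt (K / ε ^ 2)
  obtain ⟨F, hF, hFc⟩ := Set.Infinite.exists_subset_card_eq hinf n
  have hF' : ∀ y ∈ F, ∃ S : Finset V, ε < tauIn nb S p x y := fun y hy => hF hy
  choose! S hS using hF'
  have hle : ∀ y ∈ F, ε ^ 2 ≤ tauIn nb (F.biUnion S) p x y ^ 2 := fun y hy =>
    pow_le_pow_left₀ hε.le ((hS y hy).le.trans
      (tauIn_mono_region nb (subset_biUnion_of_mem S hy) h0 h1 x y)) 2
  have h2 := (card_nsmul_le_sum F _ _ hle).trans (h (F.biUnion S) F)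
  rw [hFc, nsmul_eq_mul] at h2
  rw [div_lt_iff₀ (by positivity)] at hn
  linarith

end Region

/-- No uniqueness when every vertex has only finitely many vertices at connection probability
above any given `ε`. -/
theorem not_unique_of_far (hl : Labelling G nb) (hc : G.Connected) [Infinite V]
    (hq : QuasiTransitive G) (p : unitInterval)
    (hfar : ∀ (v : V) (ε : ℝ), 0 < ε → {a | ε < (perc G p).real (reach G v a)}.Finite) :
    perc G p (uniqueInfinite G) ≠ 1 := by
  classical
  have : Countable V := countable_of_connected hl.listing hc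
  intro hU
  set μ := perc G p with hμ
  obtain ⟨y, hy⟩ : ∃ y, 0 < μ (infAt G y) := by
    by_contra hnone
    push Not at hnone
    have h0 : μ (hasInfinite G) = 0 := by
      rw [hasInfinite_eq, measure_iUnion_null_iff]
      exact fun y => le_antisymm (hnone y) bot_le
    have hsub : uniqueInfinite G ⊆ hasInfinite G := by
      rw [uniqueInfinite_eq]; exact Set.sdiff_subset
    have := measure_mono (μ := μ) hsub
    rw [hU, h0] at this
    exact absurd this (by simp)
  set θ := μ.real (infAt G y) with hθ
  have hθ0 : 0 < θ := ENNReal.toReal_pos hy.ne' (measure_ne_top _ _)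
  let O : Set V := {v | ∃ φ : G ≃g G, φ y = v}
  have hOθ : ∀ v ∈ O, μ.real (infAt G v) = θ := by
    rintro v ⟨φ, rfl⟩
    rw [hθ, measureReal_def, measureReal_def, infAt_map φ p y (measurableSet_infAt hl.listing y)]
  have hOinf : O.Infinite := by
    intro hfin
    obtain ⟨Rep, hRep⟩ := hq
    have hw : ∀ r : V, ∃ n, ∃ w : G.Walk r y, w.length = n :=
      fun r => ⟨_, (hc.preconnected r y).some, rfl⟩
    choose N hN using hw
    have hcover : (Set.univ : Set V) ⊆ ⋃ r ∈ Rep, ⋃ o ∈ O, ↑(walkBall nb (N r) o) := by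
      intro v _
      obtain ⟨φ, hφ⟩ := hRep v
      obtain ⟨w, hw⟩ := hN (φ v)
      let w' := w.map φ.symm.toHom
      refine Set.mem_biUnion hφ (Set.mem_biUnion (x := φ.symm y) ⟨φ.symm, rfl⟩ ?_)
      have := mem_walkBall hl.listing w'
      simp only [w', SimpleGraph.Walk.length_map, hw] at this
      simpa using this
    exact Set.infinite_univ ((Rep.finite_toSet.biUnion fun r _ =>
      hfin.biUnion fun o _ => finite_toSet _).subset hcover)
  obtain ⟨m, hm⟩ := exists_nat_gt (2 / θ)
  rw [div_lt_iff₀ hθ0] at hm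
  have hm0 : (0 : ℝ) < m := by
    by_contra hle
    nlinarith
  set ε : ℝ := 1 / (m : ℝ) ^ 2 with hεdef
  have hε0 : 0 < ε := by positivity
  have hsel : ∀ k : ℕ, ∃ S : Finset V, S.card = k ∧ ↑S ⊆ O ∧
      (k : ℝ) * θ ≤ μ.real (⋃ v ∈ S, infAt G v) + (k : ℝ) ^ 2 * ε := by
    intro k
    induction k with
    | zero => exact ⟨∅, by simp⟩
    | succ k ih =>
      obtain ⟨S, hSc, hSO, hSb⟩ := ih
      have hbad : ((S : Set V) ∪ ⋃ v ∈ S, {a | ε < μ.real (reach G v a)}).Finite :=
        S.finite_toSet.union (S.finite_toSet.biUnion fun v _ => hfar v ε hε0)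
      obtain ⟨a, haO, ha⟩ := (hOinf.sdiff hbad).nonempty
      simp only [Set.mem_union, mem_coe, Set.mem_iUnion, exists_prop, Set.mem_ofPred_eq, not_or,
        not_exists, not_and, not_lt] at ha
      refine ⟨insert a S, by rw [card_insert_of_notMem ha.1, hSc], ?_, ?_⟩
      · rw [coe_insert]; exact Set.insert_subset haO hSO
      have hAU : MeasurableSet (⋃ v ∈ S, infAt G v) :=
        MeasurableSet.biUnion (Finset.countable_toSet _) fun v _ => measurableSet_infAt hl.listing v
      have hinter : μ.real (infAt G a ∩ ⋃ v ∈ S, infAt G v) ≤ (k : ℝ) * ε := by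
        rw [Set.inter_iUnion₂]
        refine (measureReal_biUnion_finset_le _ _).trans ?_
        calc ∑ v ∈ S, μ.real (infAt G a ∩ infAt G v) ≤ ∑ _v ∈ S, ε := by
              refine sum_le_sum fun v hv => ?_
              refine le_trans ?_ (ha.2 v hv)
              have hsplit : infAt G a ∩ infAt G v ⊆ reach G v a ∪ (uniqueInfinite G)ᶜ := by
                intro ω hω
                by_cases hr : ω ∈ reach G v a
                · exact Or.inl hr
                · refine Or.inr fun hu => ?_
                  rw [uniqueInfinite_eq] at hu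
                  exact hu.2 (Set.mem_iUnion₂.2 ⟨v, a, ⟨hω.2, hω.1⟩, hr⟩)
              refine (measureReal_mono hsplit).trans ((measureReal_union_le _ _).trans ?_)
              have h0 : μ.real (uniqueInfinite G)ᶜ = 0 := by
                rw [measureReal_def, prob_compl_eq_one_sub (measurableSet_uniqueInfinite hl.listing), hU]
                simp
              rw [h0, add_zero]
          _ = (k : ℝ) * ε := by rw [sum_const, hSc, nsmul_eq_mul]
      have hadd := measureReal_union_add_inter (μ := μ) (s := infAt G a) hAU (measure_ne_top _ _)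
        (measure_ne_top _ _)
      rw [set_biUnion_insert, hOθ a haO] at *
      push_cast
      nlinarith
  obtain ⟨S, -, -, hb⟩ := hsel m
  have h4 : μ.real (⋃ v ∈ S, infAt G v) ≤ 1 := measureReal_le_one
  have h5 : (m : ℝ) ^ 2 * ε = 1 := by
    rw [hεdef, mul_one_div, div_self (by positivity)]
  linarith

/-- No uniqueness when the connection probabilities inside finite regions are square-summable,
uniformly in the source and the region. -/
theorem not_unique_of_sq (hl : Labelling G nb) (hc : G.Connected)
    [Infinite V] (hq : QuasiTransitive G) (p : unitInterval) (K : ℝ)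
    (h : ∀ (x : V) (S F : Finset V), ∑ y ∈ F, tauIn nb S p x y ^ 2 ≤ K) :
    perc G p (uniqueInfinite G) ≠ 1 := by
  have : Countable V := countable_of_connected hl.listing hc
  refine not_unique_of_far hl hc hq p fun v ε hε =>
    (Region.finite_large_of_sq p.2.1 p.2.2 (h v) hε).subset fun a ha => ?_
  by_contra hnone
  simp only [Set.mem_ofPred_eq, not_exists, not_lt] at hnone ha
  exact absurd (Region.real_reach_le_of_tauIn hl p hnone) (not_le.2 ha)

end Vale.Agent.P165.FF
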