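import Vale.Agent.P165.FF.Transport
import Vale.Agent.P165.FF.Unique
import Vale.Agent.P165.FF.Kernel
import Vale.Agent.P165.FF.Recursion

/-!
# Products of free groups have a nonuniqueness phase
-/

namespace Vale.Agent.P165.FF

open Finset MeasureTheory ProbabilityTheory

section Generic

variable {Γ O ι : Type} [Group Γ] [DecidableEq Γ] [DecidableEq O] [Fintype ι]
  {nb : Γ × O → ι → Γ × O}

omit [Group Γ] in
theorem phiIn_mono {p p' : ℝ} (h0 : 0 ≤ p) (h : p ≤ p') (h1 : p' ≤ 1) (S : Finset (Γ × O))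
    (x : Γ × O) : phiIn nb S p x ≤ phiIn nb S p' x := by
  refine mul_le_mul h (sum_le_sum fun a _ => sum_le_sum fun j _ => ?_) ?_ (h0.trans h)
  · split_ifs
    · exact le_rfl
    · exact tauIn_mono_p S h0 h h1 x a
  · exact sum_nonneg fun a _ => sum_nonneg fun j _ => by
      split_ifs
      · exact le_rfl
      · exact tauIn_nonneg S h0 (h.trans h1) x a

theorem witness_mono {p p' : ℝ} (h0 : 0 ≤ p) (h : p ≤ p') (h1 : p' ≤ 1) (hw : Witness nb p') :
    Witness nb p := fun o => by
  obtain ⟨Q, hQ, hQ'⟩ := hw o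
  exact ⟨Q, hQ, (phiIn_mono h0 h h1 Q _).trans_lt hQ'⟩

theorem witness_small {p : ℝ} (h0 : 0 ≤ p) (h1 : p ≤ 1) (hp : p * (Fintype.card ι : ℝ) < 1) :
    Witness nb p := fun o => by
  refine ⟨{((1 : Γ), o)}, mem_singleton_self _, lt_of_le_of_lt ?_ hp⟩
  rw [phiIn, sum_singleton]
  refine mul_le_mul_of_nonneg_left ?_ h0
  refine (sum_le_sum fun j _ => (?_ : _ ≤ (1 : ℝ))).trans (le_of_eq (by simp))
  split_ifs
  · exact zero_le_one
  · exact tauIn_le_one _ h0 h1 _ _

end Generic

section Invariant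

variable {κ : Type} [Fintype κ] [DecidableEq κ] {α : κ → Type} [∀ t, DecidableEq (α t)]
  [∀ t, Fintype (α t)] {O ι : Type} [DecidableEq O] [Fintype O] [Fintype ι]
  {G : SimpleGraph (FG α × O)} {nb : FG α × O → ι → FG α × O}

omit [Fintype κ] [∀ t, DecidableEq (α t)] [DecidableEq O] [Fintype O] in
theorem infinite_vertices [Nonempty κ] [Nonempty O] (hrank : ∀ t, 2 ≤ Fintype.card (α t)) :
    Infinite (FG α × O) := by
  obtain ⟨t⟩ := ‹Nonempty κ›
  have : Nonempty (α t) := Fintype.card_pos_iff.1 (lt_of_lt_of_le two_pos (hrank t))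
  have : Infinite (FreeGroup (α t)) := inferInstance
  have : Infinite (FG α) := Infinite.of_injective _ (Pi.mulSingle_injective t)
  exact Prod.infinite_of_left

theorem continuous_kernelB (n : ℕ) (g : FG α) : Continuous fun p : ℝ => kernelB nb n p g := by
  refine continuous_id.mul (continuous_finsetSum _ fun o _ => continuous_finsetSum _ fun a _ =>
    continuous_finsetSum _ fun j _ => ?_)
  split_ifs
  · exact tauIn_continuous _ _ _
  · exact continuous_const

/-- A connected invariant graph of bounded degree on finitely many copies of a product of free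
groups has a nonuniqueness phase. -/
theorem pc_lt_pu_invariant (hl : Labelling G nb) (hinv : Inv G) (hc : G.Connected)
    (hrank : ∀ t, 2 ≤ Fintype.card (α t)) [Nonempty κ] [Nonempty O] : pc G < pu G := by
  classical
  have hinf : Infinite (FG α × O) := infinite_vertices hrank
  have : Countable (FG α × O) := countable_of_connected hl.listing hc
  obtain ⟨L, hL1, hL⟩ := exists_step hl hinv
  set p0 : ℝ := 1 / ((Fintype.card ι : ℝ) + 1) with hp0
  have hp0pos : 0 < p0 := by positivity
  have hp01 : p0 ≤ 1 := by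
    rw [hp0, div_le_one (by positivity)]; linarith [Nat.cast_nonneg (α := ℝ) (Fintype.card ι)]
  obtain ⟨n, hn⟩ := kernel_small hl hinv hc hrank hL1 hL hp0pos hp01
  set f : ℝ → ℝ := fun p => ((n : ℝ) + L + 1) ^ (4 * Fintype.card κ)
    * ∑ g ∈ ball (n + L), kernelB nb n p g ^ 2 with hf
  have hfc : Continuous f :=
    continuous_const.mul (continuous_finsetSum _ fun g _ => (continuous_kernelB n g).pow 2)
  set W : Set ℝ := {p | 0 ≤ p ∧ p ≤ 1 ∧ Witness nb p} with hW
  set ps : ℝ := sSup W with hps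
  have hbdd : BddAbove W := ⟨1, fun p hp => hp.2.1⟩
  have hmem0 : p0 ∈ W := by
    refine ⟨hp0pos.le, hp01, witness_small hp0pos.le hp01 ?_⟩
    rw [hp0, div_mul_eq_mul_div, one_mul, div_lt_one (by positivity)]
    linarith
  have hp0ps : p0 ≤ ps := le_csSup hbdd hmem0
  have hps1 : ps ≤ 1 := csSup_le ⟨p0, hmem0⟩ fun p hp => hp.2.1
  have hsub : ∀ p, p0 ≤ p → Witness nb p → p ≤ 1 → f p ≤ 1 / 8 := fun p hp hw hp1 => by
    obtain ⟨X, hX⟩ := susceptibility hl hinv (hp0pos.le.trans hp) hp1 hw
    exact hn p hp hp1 ⟨X, fun S F x => hX S F x⟩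
  have hlow : ∀ p, p0 ≤ p → p < ps → f p ≤ 1 / 8 := fun p hp hlt => by
    obtain ⟨q, hq, hpq⟩ := exists_lt_of_lt_csSup ⟨p0, hmem0⟩ hlt
    exact hsub p hp (witness_mono (hp0pos.le.trans hp) hpq.le hq.2.1 hq.2.2)
      (hpq.le.trans hq.2.1)
  have hfps : f ps ≤ 1 / 8 := by
    rcases hp0ps.lt_or_eq with hlt | heq
    · have hmem : ps ∈ closure (Set.Ico p0 ps) := by
        rw [closure_Ico hlt.ne]; exact Set.right_mem_Icc.2 hlt.le
      exact closure_minimal (fun p hp => hlow p hp.1 hp.2) (isClosed_le hfc continuous_const) hmem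
    · rw [← heq]; exact hsub p0 le_rfl hmem0.2.2 hp01
  have hps_lt : ps < 1 := by
    refine lt_of_le_of_ne hps1 fun h => ?_
    obtain ⟨K, hK⟩ := square_summable hl hinv hL (p := 1) zero_le_one le_rfl n
      (le_trans (show f 1 ≤ 1 / 8 by simpa only [h] using hfps) (by norm_num))
    obtain ⟨N, hN⟩ := exists_nat_gt K
    obtain ⟨F, hF⟩ := Infinite.exists_subset_card_eq (FG α × O) N
    obtain ⟨x⟩ := hc.nonempty
    choose S hS using fun y => T_one hl hc x y
    have hbig : ∀ y ∈ F, tauIn nb (F.biUnion S) 1 x y = 1 := fun y hy =>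
      le_antisymm (tauIn_le_one _ zero_le_one le_rfl x y)
        ((hS y).ge.trans (tauIn_mono hl (subset_biUnion_of_mem S hy) zero_le_one le_rfl x y))
    have h2 := hK x (F.biUnion S) F
    rw [sum_congr rfl fun y hy => by rw [hbig y hy, one_pow], sum_const, hF, nsmul_eq_mul,
      mul_one] at h2
    linarith
  obtain ⟨ε, hε, hεb⟩ := Metric.eventually_nhds_iff.1
    ((hfc.tendsto ps).eventually_le_const (show f ps < 1 / 4 by linarith))
  set p2 : ℝ := ps + min (ε / 2) ((1 - ps) / 2) with hp2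
  have hmin : 0 < min (ε / 2) ((1 - ps) / 2) := lt_min (by linarith) (by linarith)
  have hp2ps : ps < p2 := by linarith
  have hp21 : p2 < 1 := by
    have := min_le_right (ε / 2) ((1 - ps) / 2); linarith
  have hfp2 : f p2 ≤ 1 / 4 := by
    refine hεb ?_
    rw [Real.dist_eq, hp2, add_sub_cancel_left, abs_of_pos hmin]
    have := min_le_left (ε / 2) ((1 - ps) / 2); linarith
  have hps0 : 0 < ps := hp0pos.trans_le hp0ps
  obtain ⟨K, hK⟩ := square_summable hl hinv hL (p := p2) (by linarith) hp21.le n hfp2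
  set q : unitInterval := ⟨(ps + p2) / 2, by constructor <;> linarith⟩ with hq
  have hqv : (q : ℝ) = (ps + p2) / 2 := rfl
  set p3 : ℝ := (ps + (q : ℝ)) / 2 with hp3
  have hnw : ¬ Witness nb p3 := fun hw => by
    have : p3 ≤ ps := le_csSup hbdd ⟨by linarith, by linarith, hw⟩
    linarith
  simp only [Witness, not_forall, not_exists, not_and, not_lt] at hnw
  obtain ⟨o, ho⟩ := hnw
  have hperc : 0 < perc G q (hasInfinite G) := by
    refine lt_of_lt_of_le (infAt_pos_of_phi hl ((1 : FG α), o) q (p₀ := p3) (by linarith)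
      (by linarith) (by linarith) fun p hp T hT =>
        (ho T hT).trans (phiIn_mono (by linarith) hp.1 (hp.2.trans q.2.2) T _)) ?_
    exact measure_mono (by rw [hasInfinite_eq]; exact Set.subset_iUnion (infAt G) _)
  refine pc_lt_pu G q p2 (by linarith) hperc (perc_one_unique hc) fun q' hq' => ?_
  refine not_unique_of_sq hl hc (quasiTransitive_of_inv hinv) q' K fun x S F => ?_
  refine le_trans (sum_le_sum fun y _ => ?_) (hK x S F)
  exact pow_le_pow_left₀ (tauIn_nonneg S q'.2.1 q'.2.2 x y)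
    (tauIn_mono_p S q'.2.1 hq'.le hp21.le x y) 2

end Invariant

/-- Graphs with a free cofinite action of a product of free groups. -/
theorem pc_lt_pu_of_action {κ : Type} [Fintype κ] [Nonempty κ] (α : κ → Type)
    [∀ t, Fintype (α t)] (hrank : ∀ t, 2 ≤ Fintype.card (α t)) {V : Type} (G : SimpleGraph V)
    (d : ℕ) (hc : G.Connected) (hd : ∀ v, (G.neighborSet v).encard = d)
    (Φ : FG α →* (G ≃g G)) (free : ∀ g v, Φ g v = v → g = 1) (R : Finset V)
    (cover : ∀ v, ∃ g, Φ g v ∈ R) : pc G < pu G := by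
  classical
  obtain ⟨O, hO, hO', G', hinv, ⟨e⟩⟩ := exists_chart G Φ free R cover
  have hc' : G'.Connected := e.connected_iff.1 hc
  have hd' : ∀ x, (G'.neighborSet x).encard = d := fun x => by
    obtain ⟨v, rfl⟩ := e.surjective x
    rw [← hd v]
    exact (ENat.card_congr (e.mapNeighborSet v)).symm
  obtain ⟨nb, hl⟩ := exists_labelling G' d hd'
  have : Nonempty O := ⟨(hc'.nonempty.some).2⟩
  rw [pc_congr e, pu_congr e]
  exact pc_lt_pu_invariant hl hinv hc' hrank

/-- Cayley graphs of groups with a finite index product of free groups. -/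
theorem pc_lt_pu_mulCayley {κ : Type} [Fintype κ] [Nonempty κ] (α : κ → Type)
    [∀ t, Fintype (α t)] (hrank : ∀ t, 2 ≤ Fintype.card (α t)) {Δ : Type} [Group Δ] (S : Set Δ)
    (hfin : S.Finite) (hgen : Subgroup.closure S = ⊤) (φ : FG α →* Δ) (hφ : Function.Injective φ)
    (hidx : φ.range.FiniteIndex) :
    pc (SimpleGraph.mulCayley S) < pu (SimpleGraph.mulCayley S) := by
  classical
  obtain ⟨s, rfl⟩ := hfin.exists_finset_coe
  set C := SimpleGraph.mulCayley (s : Set Δ) with hC
  have inv : ∀ d x y : Δ, C.Adj (d * x) (d * y) ↔ C.Adj x y :=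
    fun _ _ _ => SimpleGraph.mulCayley_adj_mul_iff_right
  let lmul : Δ → (C ≃g C) := fun d => ⟨Equiv.mulLeft d, fun {x y} => inv d x y⟩
  have hreach : ∀ x : Δ, C.Reachable 1 x := fun x => by
    have hx : x ∈ Subgroup.closure (s : Set Δ) := hgen ▸ Subgroup.mem_top x
    induction hx using Subgroup.closure_induction with
    | mem a ha =>
      by_cases h1 : a = 1
      · rw [h1]
      · exact SimpleGraph.Adj.reachable ((SimpleGraph.mulCayley_adj _ _ _).2
          ⟨fun h => h1 h.symm, Or.inl (by simpa using ha)⟩)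
    | one => exact SimpleGraph.Reachable.refl _
    | mul a b _ _ ha hb =>
      have := hb.map (lmul a).toHom
      simp [lmul] at this
      exact ha.trans this
    | inv a _ ha =>
      have := ha.map (lmul a⁻¹).toHom
      simp [lmul] at this
      exact this.symm
  have hconn : C.Connected :=
    { preconnected := fun x y => (hreach x).symm.trans (hreach y), nonempty := ⟨1⟩ }
  obtain ⟨Φ, R, free, cover⟩ := exists_leftAction C inv φ hφ hidx
  let t : Finset Δ := (s ∪ s.image (fun a => a⁻¹)).erase 1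
  refine pc_lt_pu_of_action α hrank C t.card hconn (fun v => ?_) Φ free R cover
  have : C.neighborSet v = ((t.image fun a => v * a : Finset Δ) : Set Δ) := by
    ext w
    rw [SimpleGraph.mem_neighborSet, hC, SimpleGraph.mulCayley_adj, coe_image, Set.mem_image]
    constructor
    · rintro ⟨hne, h⟩
      refine ⟨v⁻¹ * w, mem_erase.2 ⟨fun h1 => hne (inv_mul_eq_one.1 h1), ?_⟩, mul_inv_cancel_left v w⟩
      rcases h with h | h
      · exact mem_union_left _ h
      · exact mem_union_right _ (mem_image.2 ⟨_, h, by rw [mul_inv_rev, inv_inv]⟩)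
    · rintro ⟨a, ha, rfl⟩
      obtain ⟨ha1, ha⟩ := mem_erase.1 ha
      refine ⟨fun h => ha1 (by simpa using h.symm), ?_⟩
      rcases mem_union.1 ha with ha | ha
      · exact Or.inl (by simpa using ha)
      · obtain ⟨b, hb, rfl⟩ := mem_image.1 ha
        exact Or.inr (by simpa using hb)
  rw [this, Set.encard_coe_eq_coe_finsetCard, card_image_of_injective _ (mul_right_injective v)]

/-- The two statements for products of free groups on `Fin`-indexed generators. -/
theorem pc_lt_pu_fin (m : ℕ) (hm : 1 ≤ m) (r : Fin m → ℕ) (hr : ∀ t, 2 ≤ r t) :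
    (∀ (V : Type) (G : SimpleGraph V) (d : ℕ), G.Connected →
      (∀ v, (G.neighborSet v).encard = d) →
      ∀ (Φ : (∀ t : Fin m, FreeGroup (Fin (r t))) →* (G ≃g G)),
        (∀ g v, Φ g v = v → g = 1) → ∀ R : Finset V, (∀ v, ∃ g, Φ g v ∈ R) → pc G < pu G) ∧
    ∀ (Δ : Type) [Group Δ] (s : Set Δ), s.Finite → Subgroup.closure s = ⊤ →
      ∀ φ : (∀ t : Fin m, FreeGroup (Fin (r t))) →* Δ, Function.Injective φ →
        φ.range.FiniteIndex → pc (SimpleGraph.mulCayley s) < pu (SimpleGraph.mulCayley s) := by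
  have : Nonempty (Fin m) := ⟨⟨0, hm⟩⟩
  have hrank : ∀ t, 2 ≤ Fintype.card (Fin (r t)) := by simpa using hr
  exact ⟨fun V G d hc hd Φ free R cover => pc_lt_pu_of_action _ hrank G d hc hd Φ free R cover,
    fun Δ _ s hs hgen φ hφ hidx => pc_lt_pu_mulCayley _ hrank s hs hgen φ hφ hidx⟩

end Vale.Agent.P165.FF
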