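import Vale.Agent.P165.FF.Base
import Vale.Agent.P165.Main

/-!
# Connection probabilities in finite regions: chains and first exits
-/

namespace Vale.Agent.P165.FF

open Finset

variable {V ι : Type} [DecidableEq V] [Fintype ι] {G : SimpleGraph V} {nb : V → ι → V}

theorem inE_iff (hl : Labelling G nb) {S : Finset V} {e : Sym2 V} :
    e ∈ inE nb S ↔ e ∈ G.edgeSet ∧ ∀ v ∈ e, v ∈ S := by
  refine ⟨fun h => ⟨touch_adj hl.listing (mem_filter.1 h).1, fun v hv => inE_mem h hv⟩, ?_⟩
  induction e using Sym2.ind with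
  | _ x y =>
    rintro ⟨hG, hS⟩
    exact mem_inE hl (hS x (Sym2.mem_mk_left x y)) (hS y (Sym2.mem_mk_right x y)) hG

theorem inE_mono (hl : Labelling G nb) {S S' : Finset V} (h : S ⊆ S') :
    inE nb S ⊆ inE nb S' := fun e he => by
  rw [inE_iff hl] at he ⊢
  exact ⟨he.1, fun v hv => h (he.2 v hv)⟩

omit [DecidableEq V] in
theorem inc_cl (x y : V) : Inc (fun η : Finset (Sym2 V) => cl η x y) :=
  fun _ _ h => cl_mono h

theorem tauIn_eq (S : Finset V) (p : ℝ) (x y : V) :
    tauIn nb S p x y = avg (inE nb S) p fun η => ind (cl η x y) := rfl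

theorem tauIn_nonneg (S : Finset V) {p : ℝ} (h0 : 0 ≤ p) (h1 : p ≤ 1) (x y : V) :
    0 ≤ tauIn nb S p x y :=
  avg_nonneg _ h0 h1 fun _ _ => ind_nonneg _

theorem tauIn_le_one (S : Finset V) {p : ℝ} (h0 : 0 ≤ p) (h1 : p ≤ 1) (x y : V) :
    tauIn nb S p x y ≤ 1 :=
  (avg_mono _ h0 h1 fun _ _ => ind_le_one _).trans (avg_one _ _).le

theorem tauIn_mono (hl : Labelling G nb) {S S' : Finset V} (h : S ⊆ S') {p : ℝ} (h0 : 0 ≤ p)
    (h1 : p ≤ 1) (x y : V) : tauIn nb S p x y ≤ tauIn nb S' p x y :=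
  avg_mono_set (inE_mono hl h) h0 h1 (monotone_ind (inc_cl x y))

theorem tauIn_mono_p (S : Finset V) {p p' : ℝ} (h0 : 0 ≤ p) (h : p ≤ p') (h1 : p' ≤ 1) (x y : V) :
    tauIn nb S p x y ≤ tauIn nb S p' x y :=
  avg_mono_p _ h0 h h1 _ (monotone_ind (inc_cl x y))

theorem tauIn_continuous (S : Finset V) (x y : V) :
    Continuous fun p : ℝ => tauIn nb S p x y := by
  simp only [tauIn_eq, avg, wt]
  fun_prop

theorem tauIn_self (S : Finset V) (p : ℝ) (x : V) : tauIn nb S p x x = 1 := by
  rw [tauIn_eq]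
  refine (avg_congr _ _ fun η _ => ?_).trans (avg_one _ p)
  exact if_pos (SimpleGraph.Reachable.refl x)

theorem tauIn_eq_zero {S : Finset V} {x y : V} (hne : x ≠ y) (h : x ∉ S ∨ y ∉ S) (p : ℝ) :
    tauIn nb S p x y = 0 := by
  refine sum_eq_zero fun η hη => ?_
  beta_reduce
  rw [if_neg, mul_zero]
  rintro ⟨w⟩
  have key : ∀ a b : V, a ∉ S → a ≠ b →
      ∀ q : (SimpleGraph.fromEdgeSet (η : Set (Sym2 V))).Walk a b, False := by
    intro a b ha hab q
    cases q with
    | nil => exact hab rfl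
    | cons hadj q =>
      exact ha (inE_mem (mem_powerset.1 hη ((SimpleGraph.fromEdgeSet_adj _).1 hadj).1)
        (Sym2.mem_mk_left _ _))
  rcases h with h | h
  · exact key x y h hne w
  · exact key y x h hne.symm w.reverse

theorem tauIn_trans (S : Finset V) {p : ℝ} (h0 : 0 ≤ p) (h1 : p ≤ 1) (x y z : V) :
    tauIn nb S p x y * tauIn nb S p y z ≤ tauIn nb S p x z := by
  refine (harris _ h0 h1 _ _ (monotone_ind (inc_cl x y)) (monotone_ind (inc_cl y z))).trans
    (avg_mono _ h0 h1 fun η _ => ?_)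
  by_cases hxy : cl η x y
  · rw [show ind (cl η x y) = 1 from if_pos hxy, one_mul]
    exact ind_mono hxy.trans
  · rw [show ind (cl η x y) = 0 from if_neg hxy, zero_mul]
    exact ind_nonneg _

theorem pow_le_tauIn (hl : Labelling G nb) {x y : V} (w : G.Walk x y) {p : ℝ} (h0 : 0 ≤ p)
    (h1 : p ≤ 1) : p ^ w.edges.toFinset.card ≤ tauIn nb w.support.toFinset p x y := by
  set F := w.edges.toFinset
  have hF : F ⊆ inE nb w.support.toFinset := fun e he => by
    rw [List.mem_toFinset] at he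
    exact (inE_iff hl).2 ⟨w.edges_subset_edgeSet he,
      fun v hv => List.mem_toFinset.2 (SimpleGraph.Walk.mem_support_of_mem_edges he hv)⟩
  have h := avg_forced hF p fun _ => (1 : ℝ)
  rw [avg_one, mul_one] at h
  rw [← h]
  refine avg_mono _ h0 h1 fun η _ => ?_
  by_cases hc : F ⊆ η
  · rw [if_pos hc, if_pos]
    refine ⟨w.transfer _ fun e he => ?_⟩
    rw [SimpleGraph.edgeSet_fromEdgeSet]
    exact ⟨hc (List.mem_toFinset.2 he), G.not_isDiag_of_mem_edgeSet (w.edges_subset_edgeSet he)⟩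
  · rw [if_neg hc]; split_ifs <;> norm_num

theorem avg_image {α β : Type} [DecidableEq α] [DecidableEq β] (f : α → β) {E : Finset α}
    (hf : Function.Injective f) (p : ℝ) (g : Finset β → ℝ) :
    avg (E.image f) p g = avg E p fun η => g (η.image f) := by
  simp only [avg]
  rw [powerset_image, sum_image fun a _ b _ h => image_injective hf h]
  refine sum_congr rfl fun η _ => ?_
  rw [wt, wt, card_image_of_injective _ hf, card_image_of_injective _ hf]

/-- Automorphisms preserve connection probabilities. -/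
theorem tauIn_map (hl : Labelling G nb) (φ : G ≃g G) (S : Finset V) (p : ℝ) (x y : V) :
    tauIn nb (S.image φ) p (φ x) (φ y) = tauIn nb S p x y := by
  have hinj : Function.Injective (Sym2.map φ) := Sym2.map.injective φ.injective
  have hE : inE nb (S.image φ) = (inE nb S).image (Sym2.map φ) := by
    ext e
    induction e using Sym2.ind with
    | _ a b =>
      obtain ⟨a, rfl⟩ := φ.surjective a
      obtain ⟨b, rfl⟩ := φ.surjective b
      rw [← Sym2.map_mk, hinj.mem_finset_image, inE_iff hl, inE_iff hl]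
      simp [φ.map_adj_iff, φ.injective.eq_iff]
  rw [tauIn_eq, tauIn_eq, hE, avg_image _ hinj]
  refine avg_congr _ _ fun η _ => ?_
  have hadj : ∀ u v, (SimpleGraph.fromEdgeSet (η : Set (Sym2 V))).Adj u v ↔
      (SimpleGraph.fromEdgeSet ((η.image (Sym2.map φ) : Finset _) : Set (Sym2 V))).Adj (φ u) (φ v) := by
    intro u v
    rw [SimpleGraph.fromEdgeSet_adj, SimpleGraph.fromEdgeSet_adj, mem_coe, mem_coe, ← Sym2.map_mk,
      hinj.mem_finset_image, φ.injective.ne_iff]
  let ψ : SimpleGraph.fromEdgeSet (η : Set (Sym2 V)) ≃g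
      SimpleGraph.fromEdgeSet ((η.image (Sym2.map φ) : Finset _) : Set (Sym2 V)) :=
    { toEquiv := φ.toEquiv, map_rel_iff' := fun {u v} => (hadj u v).symm }
  exact congrArg ind (propext (ψ.reachable_iff (u := x) (v := y)))

/-- An event made of connections through a list of vertices on disjoint edge sets. -/
def chainEv : V → List V → V → Finset (Sym2 V) → Prop
  | x, [], y, η => cl η x y
  | x, z :: zs, y, η => box (fun K => cl K x z) (chainEv z zs y) η

omit [DecidableEq V] in
theorem inc_box {β : Type} [DecidableEq β] (A B : Finset β → Prop) : Inc (box A B) :=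
  fun _ _ h ⟨K, K', h1, h2, h3⟩ => ⟨K, K', h1.trans h, h2.trans h, h3⟩

theorem inc_chainEv : ∀ (x : V) (zs : List V) (y : V), Inc (chainEv x zs y)
  | x, [], y => inc_cl x y
  | x, z :: zs, y => inc_box _ _

/-- The product of connection probabilities along a list of vertices. -/
noncomputable def chainVal (nb : V → ι → V) (S : Finset V) (p : ℝ) : V → List V → V → ℝ
  | x, [], y => tauIn nb S p x y
  | x, z :: zs, y => tauIn nb S p x z * chainVal nb S p z zs y

theorem avg_chain_le (S : Finset V) {p : ℝ} (h0 : 0 ≤ p) (h1 : p ≤ 1) :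
    ∀ (x : V) (zs : List V) (y : V),
      avg (inE nb S) p (fun η => ind (chainEv x zs y η)) ≤ chainVal nb S p x zs y
  | x, [], y => le_rfl
  | x, z :: zs, y =>
      (bk _ h0 h1 _ _ (inc_cl x z) (inc_chainEv z zs y)).trans
        (mul_le_mul_of_nonneg_left (avg_chain_le S h0 h1 z zs y) (tauIn_nonneg S h0 h1 x z))

theorem chainVal_nonneg (S : Finset V) {p : ℝ} (h0 : 0 ≤ p) (h1 : p ≤ 1) :
    ∀ (x : V) (zs : List V) (y : V), 0 ≤ chainVal nb S p x zs y
  | x, [], y => tauIn_nonneg S h0 h1 x y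
  | x, z :: zs, y => mul_nonneg (tauIn_nonneg S h0 h1 x z) (chainVal_nonneg S h0 h1 z zs y)

omit [DecidableEq V] in
theorem exit_split {H : SimpleGraph V} (Q : Set V) :
    ∀ {x y : V} (w : H.Walk x y), x ∈ Q →
      (∀ v ∈ w.support, v ∈ Q) ∨ ∃ (a b : V) (w1 : H.Walk x a) (_ : H.Adj a b) (w2 : H.Walk b y),
        a ∈ Q ∧ b ∉ Q ∧ (∀ v ∈ w1.support, v ∈ Q) ∧ w.edges = w1.edges ++ s(a, b) :: w2.edges ∧
          w.support = w1.support ++ w2.support := by
  intro x y w hx
  induction w with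
  | nil => exact Or.inl (by simp [hx])
  | @cons u v z hadj q ih =>
    by_cases hv : v ∈ Q
    · rcases ih hv with h | ⟨a, b, w1, hab, w2, ha, hb, h1, h2, h3⟩
      · refine Or.inl fun t ht => ?_
        rcases List.mem_cons.1 ((SimpleGraph.Walk.support_cons hadj q) ▸ ht) with rfl | ht
        · exact hx
        · exact h t ht
      · refine Or.inr ⟨a, b, .cons hadj w1, hab, w2, ha, hb, fun t ht => ?_, by simp [h2], by simp [h3]⟩
        rcases List.mem_cons.1 ((SimpleGraph.Walk.support_cons hadj w1) ▸ ht) with rfl | ht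
        · exact hx
        · exact h1 t ht
    · exact Or.inr ⟨u, v, .nil, hadj, q, hx, hv, by simp [hx], by simp, by simp⟩

open Classical in
/-- The first exit from `Q`, after which the starting vertex is not visited again. -/
theorem tauIn_exit (hl : Labelling G nb) (S Q : Finset V) {x : V} (hx : x ∈ Q) (y : V) {p : ℝ}
    (h0 : 0 ≤ p) (h1 : p ≤ 1) :
    tauIn nb S p x y ≤ tauIn nb Q p x y + p * ∑ a ∈ Q, ∑ j,
      (if nb a j ∉ Q then tauIn nb Q p x a * tauIn nb (S.erase x) p (nb a j) y else 0) := by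
  set E := inE nb S
  set S' := S.erase x
  let first : Finset (Sym2 V) → Prop := fun η => cl (η ∩ inE nb Q) x y
  let exitEv : V → ι → Finset (Sym2 V) → Prop := fun a j η =>
    nb a j ∉ Q ∧ box (fun K => cl (K ∩ inE nb Q) x a)
      (fun K => s(a, nb a j) ∈ K ∧ cl ((K \ {s(a, nb a j)}) ∩ inE nb S') (nb a j) y) η
  have hQ : ∀ (u v : V), avg E p (fun η => ind (cl (η ∩ inE nb Q) u v)) ≤ tauIn nb Q p u v := by
    intro u v
    have e := avg_split (inter_subset_left (s₁ := E) (s₂ := inE nb Q)) p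
      (fun η => ind (cl η u v)) fun _ => (1 : ℝ)
    simp only [mul_one, avg_one] at e
    rw [tauIn_eq]
    refine le_trans ?_ (avg_mono_set (inter_subset_right (s₁ := E)) h0 h1 (monotone_ind (inc_cl u v)))
    rw [← e]
    refine avg_mono _ h0 h1 fun η hη => ind_mono (cl_mono fun f hf => ?_)
    rw [mem_inter] at hf ⊢
    exact ⟨hf.1, mem_inter.2 ⟨hη hf.1, hf.2⟩⟩
  have hpt : ∀ η, η ⊆ E → ind (cl η x y) ≤ ind (first η) + ∑ a ∈ Q, ∑ j, ind (exitEv a j η) := by
    intro η hη
    have hnn : 0 ≤ ∑ a ∈ Q, ∑ j, ind (exitEv a j η) :=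
      sum_nonneg fun _ _ => sum_nonneg fun _ _ => ind_nonneg _
    by_cases hc : cl η x y
    swap
    · rw [show ind (cl η x y) = 0 from if_neg hc]
      exact add_nonneg (ind_nonneg _) hnn
    obtain ⟨π, hπ⟩ := SimpleGraph.Reachable.exists_isPath hc
    have hG : ∀ e ∈ π.edges, e ∈ η := fun e he => by
      have := π.edges_subset_edgeSet he
      rw [SimpleGraph.edgeSet_fromEdgeSet] at this
      exact this.1
    rw [show ind (cl η x y) = 1 from if_pos hc]
    rcases exit_split (↑Q) π hx with hin | ⟨a, b, w1, hab, w2, ha, hb, hw1, hed, hsup⟩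
    · have : first η := cl_of_walk π fun e he => mem_inter.2 ⟨hG e he, (inE_iff hl).2
        ⟨((inE_iff hl).1 (hη (hG e he))).1,
          fun v hv => hin v (SimpleGraph.Walk.mem_support_of_mem_edges he hv)⟩⟩
      rw [show ind (first η) = 1 from if_pos this]
      linarith
    · have he : s(a, b) ∈ η := hG _ (by simp [hed])
      obtain ⟨j, rfl⟩ := (hl.adj a b).1 ((inE_iff hl).1 (hη he)).1
      have hnd := hπ.isTrail.edges_nodup
      rw [hed, List.nodup_append] at hnd
      obtain ⟨-, hnd2, hdis⟩ := hnd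
      have hxw2 : x ∉ w2.support := fun hxw => by
        have := hπ.support_nodup
        rw [hsup, List.nodup_append] at this
        exact this.2.2 x w1.start_mem_support x hxw rfl
      have hev : exitEv a j η := by
        refine ⟨hb, w1.edges.toFinset, insert s(a, nb a j) w2.edges.toFinset, ?_, ?_, ?_, ?_,
          mem_insert_self _ _, ?_⟩
        · exact fun e he' => hG e (by simp [hed, List.mem_toFinset.1 he'])
        · exact insert_subset he fun e he' => hG e (by simp [hed, List.mem_toFinset.1 he'])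
        · refine disjoint_left.2 fun e h1' h2' => ?_
          rw [List.mem_toFinset] at h1'
          rw [mem_insert, List.mem_toFinset, ← List.mem_cons] at h2'
          exact hdis e h1' e h2' rfl
        · exact cl_of_walk w1 fun e he' => mem_inter.2 ⟨List.mem_toFinset.2 he', (inE_iff hl).2
            ⟨((inE_iff hl).1 (hη (hG e (by simp [hed, he'])))).1,
              fun v hv => hw1 v (SimpleGraph.Walk.mem_support_of_mem_edges he' hv)⟩⟩
        · refine cl_of_walk w2 fun e he' => mem_inter.2 ⟨mem_sdiff.2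
            ⟨mem_insert_of_mem (List.mem_toFinset.2 he'), ?_⟩, (inE_iff hl).2 ⟨?_, fun v hv => ?_⟩⟩
          · intro hmem
            rw [mem_singleton] at hmem
            subst hmem
            exact (List.nodup_cons.1 hnd2).1 he'
          · exact ((inE_iff hl).1 (hη (hG e (by simp [hed, he'])))).1
          · have heS := ((inE_iff hl).1 (hη (hG e (by simp [hed, he'])))).2 v hv
            refine mem_erase.2 ⟨fun hvx => hxw2 ?_, heS⟩
            exact hvx ▸ SimpleGraph.Walk.mem_support_of_mem_edges he' hv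
      have h3 : (1 : ℝ) ≤ ∑ a ∈ Q, ∑ j, ind (exitEv a j η) := by
        refine le_trans ?_ (single_le_sum (f := fun a => ∑ j, ind (exitEv a j η))
          (fun c _ => sum_nonneg fun _ _ => ind_nonneg _) ha)
        refine le_trans ?_ (single_le_sum (f := fun j => ind (exitEv a j η))
          (fun c _ => ind_nonneg _) (mem_univ j))
        exact (if_pos hev : ind (exitEv a j η) = 1).ge
      have := ind_nonneg (first η)
      linarith
  rw [tauIn_eq]
  refine (avg_mono _ h0 h1 hpt).trans ?_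
  rw [avg_add, avg_sum, mul_sum]
  refine add_le_add (hQ x y) (sum_le_sum fun a _ => ?_)
  rw [avg_sum, mul_sum]
  refine sum_le_sum fun j _ => ?_
  by_cases hb : nb a j ∉ Q
  swap
  · rw [if_neg hb, mul_zero]
    refine le_of_eq (sum_eq_zero fun η _ => ?_)
    beta_reduce
    rw [show ind (exitEv a j η) = 0 from if_neg fun h => hb h.1, mul_zero]
  rw [if_pos hb]
  set e := s(a, nb a j)
  have hA : Inc fun K : Finset (Sym2 V) => cl (K ∩ inE nb Q) x a :=
    fun _ _ h => cl_mono (inter_subset_inter h le_rfl)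
  have hB : Inc fun K : Finset (Sym2 V) => e ∈ K ∧ cl ((K \ {e}) ∩ inE nb S') (nb a j) y :=
    fun _ _ h hc => ⟨h hc.1, cl_mono (inter_subset_inter (sdiff_subset_sdiff h le_rfl) le_rfl) hc.2⟩
  refine (avg_mono _ h0 h1 fun η _ => ind_mono fun h => h.2).trans ((bk E h0 h1 _ _ hA hB).trans ?_)
  rw [← mul_assoc, mul_comm p, mul_assoc]
  refine mul_le_mul (hQ x a) ?_ (avg_nonneg _ h0 h1 fun _ _ => ind_nonneg _)
    (tauIn_nonneg Q h0 h1 x a)
  set g : Finset (Sym2 V) → ℝ := fun K => ind (cl (K ∩ inE nb S') (nb a j) y)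
  by_cases heE : e ∈ E
  swap
  · refine le_trans (le_of_eq (sum_eq_zero fun η hη => ?_))
      (mul_nonneg h0 (tauIn_nonneg S' h0 h1 _ _))
    exact mul_eq_zero_of_right _ (if_neg fun h => heE (mem_powerset.1 hη h.1))
  have hfor := avg_forced (singleton_subset_iff.2 heE) p g
  rw [card_singleton, pow_one] at hfor
  calc avg E p (fun η => ind (e ∈ η ∧ cl ((η \ {e}) ∩ inE nb S') (nb a j) y))
      = avg E p (fun η => if {e} ⊆ η then g (η \ {e}) else 0) := by
        refine avg_congr _ _ fun η _ => ?_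
        by_cases he : e ∈ η <;> simp [g, ind, he]
    _ = p * avg (E \ {e}) p g := hfor
    _ ≤ p * tauIn nb S' p (nb a j) y := by
        refine mul_le_mul_of_nonneg_left ?_ h0
        have hmono : Monotone g := fun _ _ h => ind_mono (cl_mono (inter_subset_inter h le_rfl))
        refine (avg_mono_set sdiff_subset h0 h1 hmono).trans ?_
        have e' := avg_split (inter_subset_left (s₁ := E) (s₂ := inE nb S')) p
          (fun η => ind (cl η (nb a j) y)) fun _ => (1 : ℝ)
        simp only [mul_one, avg_one] at e'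
        rw [tauIn_eq]
        refine le_trans ?_ (avg_mono_set (inter_subset_right (s₁ := E)) h0 h1 (monotone_ind (inc_cl _ y)))
        rw [← e']
        refine avg_mono _ h0 h1 fun η hη => ind_mono (cl_mono fun f hf => ?_)
        rw [mem_inter] at hf ⊢
        exact ⟨hf.1, mem_inter.2 ⟨hη hf.1, hf.2⟩⟩

section Sup

theorem bdd_tauIn {p : ℝ} (h0 : 0 ≤ p) (h1 : p ≤ 1) (x y : V) :
    BddAbove (Set.range fun S => tauIn nb S p x y) :=
  ⟨1, by rintro _ ⟨S, rfl⟩; exact tauIn_le_one S h0 h1 x y⟩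

theorem le_T {p : ℝ} (h0 : 0 ≤ p) (h1 : p ≤ 1) (S : Finset V) (x y : V) :
    tauIn nb S p x y ≤ T nb p x y :=
  le_ciSup (bdd_tauIn h0 h1 x y) S

theorem T_nonneg {p : ℝ} (h0 : 0 ≤ p) (h1 : p ≤ 1) (x y : V) : 0 ≤ T nb p x y :=
  (tauIn_nonneg ∅ h0 h1 x y).trans (le_T h0 h1 ∅ x y)

theorem T_le_one {p : ℝ} (h0 : 0 ≤ p) (h1 : p ≤ 1) (x y : V) : T nb p x y ≤ 1 :=
  ciSup_le fun S => tauIn_le_one S h0 h1 x y

theorem T_self {p : ℝ} (h0 : 0 ≤ p) (h1 : p ≤ 1) (x : V) : T nb p x x = 1 :=
  le_antisymm (T_le_one h0 h1 x x) ((tauIn_self ∅ p x).ge.trans (le_T h0 h1 ∅ x x))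

theorem T_mono {p p' : ℝ} (h0 : 0 ≤ p) (h : p ≤ p') (h1 : p' ≤ 1) (x y : V) :
    T nb p x y ≤ T nb p' x y :=
  ciSup_le fun S => (tauIn_mono_p S h0 h h1 x y).trans (le_T (h0.trans h) h1 S x y)

theorem T_trans (hl : Labelling G nb) {p : ℝ} (h0 : 0 ≤ p) (h1 : p ≤ 1) (x y z : V) :
    T nb p x y * T nb p y z ≤ T nb p x z := by
  rw [T, Real.iSup_mul_of_nonneg (T_nonneg h0 h1 y z)]
  refine ciSup_le fun S₁ => ?_
  rw [T, Real.mul_iSup_of_nonneg (tauIn_nonneg S₁ h0 h1 x y)]
  refine ciSup_le fun S₂ => ?_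
  exact ((mul_le_mul (tauIn_mono hl subset_union_left h0 h1 x y)
    (tauIn_mono hl subset_union_right h0 h1 y z) (tauIn_nonneg S₂ h0 h1 y z)
    (tauIn_nonneg _ h0 h1 x y)).trans (tauIn_trans (S₁ ∪ S₂) h0 h1 x y z)).trans
    (le_T h0 h1 _ x z)

theorem T_pos (hl : Labelling G nb) (hc : G.Connected) {p : ℝ} (h0 : 0 < p) (h1 : p ≤ 1)
    (x y : V) : 0 < T nb p x y := by
  obtain ⟨w⟩ := hc.preconnected x y
  exact lt_of_lt_of_le (pow_pos h0 _) ((pow_le_tauIn hl w h0.le h1).trans (le_T h0.le h1 _ x y))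

theorem T_one (hl : Labelling G nb) (hc : G.Connected) (x y : V) :
    ∃ S, tauIn nb S 1 x y = 1 := by
  obtain ⟨w⟩ := hc.preconnected x y
  refine ⟨w.support.toFinset, le_antisymm (tauIn_le_one _ zero_le_one le_rfl x y) ?_⟩
  simpa using pow_le_tauIn hl w (p := 1) zero_le_one le_rfl

theorem sum_T_le (hl : Labelling G nb) {p : ℝ} (h0 : 0 ≤ p) (h1 : p ≤ 1) (x : V) (F : Finset V)
    {X : ℝ} (h : ∀ S, ∑ y ∈ F, tauIn nb S p x y ≤ X) : ∑ y ∈ F, T nb p x y ≤ X := by
  refine le_of_tendsto (tendsto_finsetSum F fun y _ =>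
    tendsto_atTop_ciSup (fun S S' hS => tauIn_mono hl hS h0 h1 x y) (bdd_tauIn h0 h1 x y)) ?_
  exact Filter.Eventually.of_forall h

theorem T_map (hl : Labelling G nb) (φ : G ≃g G) {p : ℝ} (h0 : 0 ≤ p) (h1 : p ≤ 1) (x y : V) :
    T nb p (φ x) (φ y) = T nb p x y := by
  refine le_antisymm (ciSup_le fun S => ?_) (ciSup_le fun S => ?_)
  · have := tauIn_map hl φ (S.image φ.symm) p x y
    rw [image_image, show (φ ∘ φ.symm : V → V) = id from funext φ.apply_symm_apply, image_id] at this
    rw [this]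
    exact le_T h0 h1 _ x y
  · rw [← tauIn_map hl φ S p x y]
    exact le_T h0 h1 _ _ _

end Sup

end Vale.Agent.P165.FF
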