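import Vale.Agent.P165.FF.Base

/-!
# Transport along graph isomorphisms and charts for free cofinite actions
-/

namespace Vale.Agent.P165.FF

open MeasureTheory ProbabilityTheory

variable {V W : Type} {G : SimpleGraph V} {G' : SimpleGraph W}

/-- Pulling configurations back along an isomorphism. -/
def configEquiv (e : G ≃g G') : Config G' ≃ᵐ Config G :=
  MeasurableEquiv.piCongrLeft (fun _ : G.edgeSet => Bool) e.mapEdgeSet.symm

theorem configEquiv_apply (e : G ≃g G') (ω : Config G') (x : G.edgeSet) :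
    configEquiv e ω x = ω (e.mapEdgeSet x) := by
  obtain ⟨x', rfl⟩ := e.mapEdgeSet.symm.surjective x
  rw [configEquiv, MeasurableEquiv.piCongrLeft_apply_apply]
  exact congrArg ω (e.mapEdgeSet.apply_symm_apply x').symm

theorem perc_map_configEquiv (e : G ≃g G') (p : unitInterval) :
    (perc G' p).map (configEquiv e) = perc G p :=
  Measure.infinitePi_map_piCongrLeft (fun _ : G.edgeSet => bernoulliMeasure true false p)
    e.mapEdgeSet.symm

/-- The isomorphism of the open subgraphs. -/
def openIso (e : G ≃g G') (ω : Config G') :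
    openGraph G (configEquiv e ω) ≃g openGraph G' ω where
  toEquiv := e.toEquiv
  map_rel_iff' := by
    intro u v
    constructor
    · rintro ⟨h, hv⟩
      refine ⟨e.map_adj_iff.1 h, ?_⟩
      rw [configEquiv_apply]
      exact hv
    · rintro ⟨h, hv⟩
      refine ⟨e.map_adj_iff.2 h, ?_⟩
      rw [configEquiv_apply] at hv
      exact hv

theorem mem_infClusters_iff (e : G ≃g G') (ω : Config G')
    (c : (openGraph G (configEquiv e ω)).ConnectedComponent) :
    (openIso e ω).connectedComponentEquiv c ∈ infClusters G' ω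
      ↔ c ∈ infClusters G (configEquiv e ω) := by
  have h := SimpleGraph.ConnectedComponent.isoEquivSupp (openIso e ω) c
  change Set.Infinite _ ↔ Set.Infinite _
  rw [← Set.infinite_coe_iff, ← Set.infinite_coe_iff]
  exact h.infinite_iff.symm

theorem configEquiv_preimage_hasInfinite (e : G ≃g G') :
    configEquiv e ⁻¹' hasInfinite G = hasInfinite G' := by
  ext ω
  constructor
  · rintro ⟨c, hc⟩
    exact ⟨_, (mem_infClusters_iff e ω c).2 hc⟩
  · rintro ⟨c, hc⟩
    obtain ⟨d, rfl⟩ := (openIso e ω).connectedComponentEquiv.surjective c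
    exact ⟨d, (mem_infClusters_iff e ω d).1 hc⟩

theorem configEquiv_preimage_uniqueInfinite (e : G ≃g G') :
    configEquiv e ⁻¹' uniqueInfinite G = uniqueInfinite G' := by
  ext ω
  exact (openIso e ω).connectedComponentEquiv.existsUnique_congr
    fun {c} => (mem_infClusters_iff e ω c).symm

theorem perc_hasInfinite_congr (e : G ≃g G') (p : unitInterval) :
    perc G p (hasInfinite G) = perc G' p (hasInfinite G') := by
  rw [← perc_map_configEquiv e p, MeasurableEquiv.map_apply, configEquiv_preimage_hasInfinite]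

theorem perc_uniqueInfinite_congr (e : G ≃g G') (p : unitInterval) :
    perc G p (uniqueInfinite G) = perc G' p (uniqueInfinite G') := by
  rw [← perc_map_configEquiv e p, MeasurableEquiv.map_apply, configEquiv_preimage_uniqueInfinite]

/-- Isomorphic graphs have the same threshold. -/
theorem pc_congr (e : G ≃g G') : pc G = pc G' := by
  simp only [pc, perc_hasInfinite_congr e]

/-- Isomorphic graphs have the same uniqueness threshold. -/
theorem pu_congr (e : G ≃g G') : pu G = pu G' := by
  simp only [pu, perc_uniqueInfinite_congr e]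

/-- A free action with finitely many orbits turns a graph into an invariant graph on `Γ × O`. -/
theorem exists_chart {Γ V : Type} [Group Γ] (G : SimpleGraph V) (Φ : Γ →* (G ≃g G))
    (free : ∀ g v, Φ g v = v → g = 1) (R : Finset V) (cover : ∀ v, ∃ g, Φ g v ∈ R) :
    ∃ (O : Type) (_ : Fintype O) (_ : DecidableEq O) (G' : SimpleGraph (Γ × O)),
      Inv G' ∧ Nonempty (G ≃g G') := by
  classical
  have hmul : ∀ g h v, Φ (g * h) v = Φ g (Φ h v) := fun g h v => by rw [map_mul]; rfl
  have hone : ∀ v, Φ 1 v = v := fun v => by rw [map_one]; rfl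
  let s : Setoid V :=
    { r := fun u v => ∃ g, Φ g u = v
      iseqv :=
        { refl := fun v => ⟨1, hone v⟩
          symm := fun {u v} ⟨g, hg⟩ => ⟨g⁻¹, by rw [← hg, ← hmul, inv_mul_cancel, hone]⟩
          trans := fun {u v w} ⟨g, hg⟩ ⟨h, hh⟩ => ⟨h * g, by rw [hmul, hg, hh]⟩ } }
  let O := Quotient s
  have hfin : Finite O := by
    refine Finite.of_surjective (fun r : R => Quotient.mk s (r : V)) fun o => ?_
    induction o using Quotient.ind with
    | _ v =>
      obtain ⟨g, hg⟩ := cover v
      exact ⟨⟨_, hg⟩, (Quotient.sound (s := s) ⟨g, rfl⟩).symm⟩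
  let f : Γ × O → V := fun x => Φ x.1 x.2.out
  have hf : Function.Bijective f := by
    refine ⟨fun x y h => ?_, fun v => ?_⟩
    · obtain ⟨g, o⟩ := x
      obtain ⟨g', o'⟩ := y
      simp only [f] at h
      have ho : o = o' := by
        rw [← o.out_eq, ← o'.out_eq]
        exact Quotient.sound (s := s) ⟨g'⁻¹ * g, by rw [hmul, h, ← hmul, inv_mul_cancel, hone]⟩
      subst ho
      have hfix : Φ (g'⁻¹ * g) o.out = o.out := by rw [hmul, h, ← hmul, inv_mul_cancel, hone]
      rw [inv_mul_eq_one.1 (free _ _ hfix)]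
    · obtain ⟨g, hg⟩ := Quotient.exact (s := s) (Quotient.mk s v).out_eq
      exact ⟨(g, Quotient.mk s v), hg⟩
  refine ⟨O, Fintype.ofFinite O, inferInstance, G.comap f, fun g x y => ?_, ⟨?_⟩⟩
  · simp only [SimpleGraph.comap_adj, f, tr, hmul]
    exact (Φ g).map_adj_iff
  · exact SimpleGraph.Iso.symm ⟨Equiv.ofBijective f hf, by simp⟩

/-- A left invariant graph on a group carries a free cofinite action of any finite index
subgroup, given as an injective homomorphism. -/
theorem exists_leftAction {Γ Δ : Type} [Group Γ] [Group Δ] (H : SimpleGraph Δ)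
    (inv : ∀ d x y : Δ, H.Adj (d * x) (d * y) ↔ H.Adj x y) (φ : Γ →* Δ)
    (hφ : Function.Injective φ) (hidx : φ.range.FiniteIndex) :
    ∃ (Φ : Γ →* (H ≃g H)) (R : Finset Δ),
      (∀ g v, Φ g v = v → g = 1) ∧ ∀ v, ∃ g, Φ g v ∈ R := by
  classical
  let L : Δ →* (H ≃g H) :=
    { toFun := fun d => ⟨Equiv.mulLeft d, fun {x y} => inv d x y⟩
      map_one' := by ext x; simp
      map_mul' := fun a b => by ext x; exact mul_assoc a b x }
  have : Fintype (Δ ⧸ φ.range) := Fintype.ofFinite _
  refine ⟨L.comp φ, Finset.univ.image fun c : Δ ⧸ φ.range => c.out⁻¹, fun g v h => ?_, fun v => ?_⟩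
  · have h' : φ g * v = v := h
    exact hφ (by rw [map_one]; exact mul_eq_right.1 h')
  · obtain ⟨h, hh⟩ := QuotientGroup.mk_out_eq_mul φ.range v⁻¹
    obtain ⟨g, hg⟩ : ∃ g, φ g = (h : Δ) := MonoidHom.mem_range.1 h.2
    refine ⟨g⁻¹, Finset.mem_image.2 ⟨(v⁻¹ : Δ), Finset.mem_univ _, ?_⟩⟩
    rw [hh]
    show _ = φ g⁻¹ * v
    rw [map_inv, hg, mul_inv_rev, inv_inv]

/-- Cayley graphs of groups virtually `Γ`. -/
theorem exists_cayleyAction {Γ Δ : Type} [Group Γ] [Group Δ] (s : Set Δ) (φ : Γ →* Δ)
    (hφ : Function.Injective φ) (hidx : φ.range.FiniteIndex) :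
    ∃ (Φ : Γ →* (SimpleGraph.mulCayley s ≃g SimpleGraph.mulCayley s)) (R : Finset Δ),
      (∀ g v, Φ g v = v → g = 1) ∧ ∀ v, ∃ g, Φ g v ∈ R :=
  exists_leftAction _ (fun _ _ _ => SimpleGraph.mulCayley_adj_mul_iff_right) φ hφ hidx

/-- Invariant graphs on `Γ × O` are quasi-transitive. -/
theorem quasiTransitive_of_inv {Γ O : Type} [Group Γ] [Fintype O] {G : SimpleGraph (Γ × O)}
    (h : Inv G) : QuasiTransitive G := by
  classical
  refine ⟨Finset.univ.image fun o => ((1 : Γ), o), fun x => ⟨?_, ?_⟩⟩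
  · exact
      { toEquiv := (Equiv.mulLeft x.1⁻¹).prodCongr (Equiv.refl O)
        map_rel_iff' := fun {a b} => h x.1⁻¹ a b }
  · exact Finset.mem_image.2 ⟨x.2, Finset.mem_univ _, Prod.ext (inv_mul_cancel x.1).symm rfl⟩

end Vale.Agent.P165.FF
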