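import Vale.Agent.P165.FF.Perco

/-!
# Below the critical parameter: finite susceptibility and the mass of balls
-/

namespace Vale.Agent.P165.FF

open Finset

section Invariant

variable {Γ O ι : Type} [Group Γ] [DecidableEq Γ] [DecidableEq O] [Fintype ι]
  {G : SimpleGraph (Γ × O)} {nb : Γ × O → ι → Γ × O}

/-- Translation as an automorphism. -/
def trIso (hinv : Inv G) (g : Γ) : G ≃g G where
  toFun := tr g
  invFun := tr g⁻¹
  left_inv x := by simp [tr]
  right_inv x := by simp [tr]
  map_rel_iff' {a b} := hinv g a b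

omit [DecidableEq Γ] [DecidableEq O] in
theorem trIso_apply (hinv : Inv G) (g : Γ) (x : Γ × O) : trIso hinv g x = tr g x := rfl

omit [DecidableEq Γ] [DecidableEq O] in
theorem tr_tr (g h : Γ) (x : Γ × O) : tr g (tr h x) = tr (g * h) x := by simp [tr, mul_assoc]

theorem tauIn_tr (hl : Labelling G nb) (hinv : Inv G) (g : Γ) (S : Finset (Γ × O)) (p : ℝ)
    (x y : Γ × O) : tauIn nb (S.image (tr g)) p (tr g x) (tr g y) = tauIn nb S p x y :=
  tauIn_map hl (trIso hinv g) S p x y

theorem T_tr (hl : Labelling G nb) (hinv : Inv G) (g : Γ) {p : ℝ} (h0 : 0 ≤ p) (h1 : p ≤ 1)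
    (x y : Γ × O) : T nb p (tr g x) (tr g y) = T nb p x y :=
  T_map hl (trIso hinv g) h0 h1 x y

omit [DecidableEq Γ] [DecidableEq O] in
theorem tr_injective (g : Γ) : Function.Injective (tr (O := O) g) :=
  fun a b h => by simpa [tr, Prod.ext_iff] using h

/-- A region around every base vertex with less than one expected open exit. -/
def Witness (nb : Γ × O → ι → Γ × O) (p : ℝ) : Prop :=
  ∀ o : O, ∃ Q : Finset (Γ × O), ((1 : Γ), o) ∈ Q ∧ phiIn nb Q p (1, o) < 1

/-- Finite susceptibility. -/
theorem susceptibility (hl : Labelling G nb) (hinv : Inv G) [Fintype O] {p : ℝ} (h0 : 0 ≤ p)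
    (h1 : p ≤ 1) (hw : Witness nb p) :
    ∃ X : ℝ, ∀ (S F : Finset (Γ × O)) (x : Γ × O), ∑ y ∈ F, tauIn nb S p x y ≤ X := by
  choose Q hQ hphi using hw
  set r := (insert (0 : ℝ) (univ.image fun o => phiIn nb (Q o) p (1, o))).max' (insert_nonempty _ _)
  have hr0 : 0 ≤ r := le_max' _ _ (mem_insert_self _ _)
  have hr1 : r < 1 := by
    refine (max'_lt_iff _ _).2 fun a ha => ?_
    rcases mem_insert.1 ha with rfl | ha
    · exact one_pos
    · obtain ⟨o, -, rfl⟩ := mem_image.1 ha; exact hphi o
  have hr : ∀ o, phiIn nb (Q o) p (1, o) ≤ r := fun o =>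
    le_max' (insert (0 : ℝ) (univ.image fun o => phiIn nb (Q o) p (1, o))) _
      (mem_insert_of_mem (mem_image.2 ⟨o, mem_univ o, rfl⟩))
  set K : ℝ := 1 + ∑ o, ((Q o).card : ℝ) with hK
  have hK1 : 1 ≤ K := le_add_of_nonneg_right (sum_nonneg fun _ _ => Nat.cast_nonneg _)
  set X := K / (1 - r)
  have hKX : K ≤ X := by
    rw [le_div_iff₀ (by linarith)]; nlinarith
  refine ⟨X, fun S => ?_⟩
  suffices h : ∀ n : ℕ, ∀ S : Finset (Γ × O), S.card ≤ n →
      ∀ (F : Finset (Γ × O)) (x : Γ × O), ∑ y ∈ F, tauIn nb S p x y ≤ X from h S.card S le_rfl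
  intro n
  induction n using Nat.strong_induction_on with
  | _ n ih =>
    intro S hS F x
    set g := x.1⁻¹
    have hbase : tr g x = ((1 : Γ), x.2) := by simp [g, tr]
    set S' := S.image (tr g)
    set F' := F.image (tr g)
    have hsum : ∑ y ∈ F, tauIn nb S p x y = ∑ y ∈ F', tauIn nb S' p (1, x.2) y := by
      rw [sum_image fun a _ b _ h => tr_injective g h]
      refine sum_congr rfl fun y _ => ?_
      rw [← hbase, tauIn_tr hl hinv]
    rw [hsum]
    by_cases hx : ((1 : Γ), x.2) ∈ S'
    swap
    · refine le_trans ?_ (hK1.trans hKX)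
      calc ∑ y ∈ F', tauIn nb S' p (1, x.2) y
          ≤ ∑ y ∈ F', if ((1 : Γ), x.2) = y then 1 else 0 := by
            refine sum_le_sum fun y _ => ?_
            split_ifs with h
            · exact tauIn_le_one S' h0 h1 _ _
            · exact (tauIn_eq_zero h (Or.inl hx) p).le
        _ ≤ 1 := by rw [sum_ite_eq]; split_ifs <;> norm_num
    set o := x.2
    have hlt : (S'.erase (1, o)).card < n := by
      have h2 : S'.card ≤ n := card_image_le.trans hS
      have h3 := card_erase_of_mem hx
      have h4 := card_pos.2 ⟨_, hx⟩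
      omega
    calc ∑ y ∈ F', tauIn nb S' p (1, o) y
        ≤ ∑ y ∈ F', (tauIn nb (Q o) p (1, o) y + p * ∑ a ∈ Q o, ∑ j,
          if nb a j ∉ Q o then
            tauIn nb (Q o) p (1, o) a * tauIn nb (S'.erase (1, o)) p (nb a j) y else 0) :=
          sum_le_sum fun y _ => tauIn_exit hl S' (Q o) (hQ o) y h0 h1
      _ ≤ K + r * X := by
          rw [sum_add_distrib]
          refine add_le_add ?_ ?_
          · calc ∑ y ∈ F', tauIn nb (Q o) p (1, o) y
                ≤ ∑ y ∈ F', if y ∈ Q o then 1 else 0 := by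
                  refine sum_le_sum fun y _ => ?_
                  split_ifs with h
                  · exact tauIn_le_one _ h0 h1 _ _
                  · exact (tauIn_eq_zero (fun he : ((1 : Γ), o) = y => h (by rw [← he]; exact hQ o))
                      (Or.inr h) p).le
              _ ≤ ((Q o).card : ℝ) := by
                  rw [sum_boole]
                  exact Nat.cast_le.2 (card_le_card fun y hy => (mem_filter.1 hy).2)
              _ ≤ K := by
                  rw [hK]
                  have := single_le_sum (f := fun o => ((Q o).card : ℝ)) (fun o _ => Nat.cast_nonneg _)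
                    (mem_univ o)
                  linarith
          · calc ∑ y ∈ F', p * ∑ a ∈ Q o, ∑ j, (if nb a j ∉ Q o then
                  tauIn nb (Q o) p (1, o) a * tauIn nb (S'.erase (1, o)) p (nb a j) y else 0)
                = p * ∑ a ∈ Q o, ∑ j, (if nb a j ∉ Q o then tauIn nb (Q o) p (1, o) a *
                    ∑ y ∈ F', tauIn nb (S'.erase (1, o)) p (nb a j) y else 0) := by
                  rw [← mul_sum, sum_comm]
                  refine congrArg _ (sum_congr rfl fun a _ => ?_)
                  rw [sum_comm]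
                  refine sum_congr rfl fun j _ => ?_
                  split_ifs
                  · simp
                  · rw [mul_sum]
              _ ≤ p * ∑ a ∈ Q o, ∑ j,
                    (if nb a j ∉ Q o then tauIn nb (Q o) p (1, o) a else 0) * X := by
                  refine mul_le_mul_of_nonneg_left
                    (sum_le_sum fun a _ => sum_le_sum fun j _ => ?_) h0
                  split_ifs
                  · simp
                  · exact mul_le_mul_of_nonneg_left (ih _ hlt _ le_rfl _ _)
                      (tauIn_nonneg _ h0 h1 _ _)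
              _ = phiIn nb (Q o) p (1, o) * X := by
                  simp only [phiIn, ← sum_mul, mul_assoc]
              _ ≤ r * X := mul_le_mul_of_nonneg_right (hr o) (by linarith)
      _ = X := by
          have hne : (1 : ℝ) - r ≠ 0 := by linarith
          simp only [X]; field_simp; ring

end Invariant

section Balls

variable {κ : Type} [Fintype κ] [DecidableEq κ] {α : κ → Type} [∀ t, DecidableEq (α t)]
  [∀ t, Fintype (α t)] {O ι : Type} [DecidableEq O] [Fintype O] [Fintype ι]
  {G : SimpleGraph (FG α × O)} {nb : FG α × O → ι → FG α × O}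

omit [∀ t, Fintype (α t)] [DecidableEq O] [DecidableEq κ] in
/-- Edges have bounded displacement. -/
theorem exists_step (hl : Labelling G nb) (hinv : Inv G) :
    ∃ L : ℕ, 1 ≤ L ∧ ∀ x y : FG α × O, G.Adj x y → ∀ t, ((x.1⁻¹ * y.1) t).norm ≤ L := by
  refine ⟨1 + ∑ o : O, ∑ j : ι, ∑ t, ((nb (1, o) j).1 t).norm, by omega, fun x y h t => ?_⟩
  have h' := (hinv x.1⁻¹ x y).2 h
  have e : tr x.1⁻¹ x = ((1 : FG α), x.2) := by simp [tr]
  rw [e] at h'
  obtain ⟨j, hj⟩ := (hl.adj _ _).1 h'
  have e2 : (nb (1, x.2) j).1 = x.1⁻¹ * y.1 := by rw [hj]; rfl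
  rw [← e2]
  have h1 : ((nb (1, x.2) j).1 t).norm ≤ ∑ t, ((nb (1, x.2) j).1 t).norm :=
    single_le_sum (f := fun t => ((nb (1, x.2) j).1 t).norm) (fun _ _ => Nat.zero_le _) (mem_univ t)
  have h2 : ∑ t, ((nb (1, x.2) j).1 t).norm ≤ ∑ j, ∑ t, ((nb (1, x.2) j).1 t).norm :=
    single_le_sum (f := fun j => ∑ t, ((nb (1, x.2) j).1 t).norm) (fun _ _ => Nat.zero_le _)
      (mem_univ j)
  have h3 : ∑ j, ∑ t, ((nb (1, x.2) j).1 t).norm ≤ ∑ o, ∑ j, ∑ t, ((nb (1, o) j).1 t).norm :=
    single_le_sum (f := fun o => ∑ j, ∑ t, ((nb (1, o) j).1 t).norm) (fun _ _ => Nat.zero_le _)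
      (mem_univ x.2)
  omega

/-- Short connections have probability bounded below. -/
theorem exists_delta (hl : Labelling G nb) (hinv : Inv G) (hc : G.Connected) {p0 : ℝ}
    (h0 : 0 < p0) (h01 : p0 ≤ 1) :
    ∃ δ : ℝ, 0 < δ ∧ δ ≤ 1 ∧ ∀ p, p0 ≤ p → p ≤ 1 → ∀ x y : FG α × O,
      x.1⁻¹ * y.1 ∈ ball 3 → δ ≤ T nb p x y := by
  set P : Finset (O × (FG α × O)) := univ ×ˢ (ball 3 ×ˢ univ)
  set f : O × (FG α × O) → ℝ := fun q => T nb p0 (1, q.1) q.2
  have hf1 : ∀ q, f q ≤ 1 := fun q => T_le_one h0.le h01 _ _
  have hf0 : ∀ q, 0 ≤ f q := fun q => T_nonneg h0.le h01 _ _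
  refine ⟨∏ q ∈ P, f q, prod_pos fun q _ => T_pos hl hc h0 h01 _ _,
    prod_le_one (fun q _ => hf0 q) fun q _ => hf1 q, fun p hp hp1 x y hxy => ?_⟩
  have hmem : (x.2, (x.1⁻¹ * y.1, y.2)) ∈ P := by simp [P, hxy]
  calc ∏ q ∈ P, f q = f (x.2, (x.1⁻¹ * y.1, y.2)) * ∏ q ∈ P.erase (x.2, (x.1⁻¹ * y.1, y.2)), f q :=
        (mul_prod_erase P f hmem).symm
    _ ≤ f (x.2, (x.1⁻¹ * y.1, y.2)) :=
        mul_le_of_le_one_right (hf0 _) (prod_le_one (fun q _ => hf0 q) fun q _ => hf1 q)
    _ ≤ T nb p (1, x.2) (x.1⁻¹ * y.1, y.2) := T_mono h0.le hp hp1 _ _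
    _ = T nb p x y := by
        rw [← T_tr hl hinv x.1⁻¹ (h0.le.trans hp) hp1 x y]
        congr 1
        simp [tr]

variable {β : Type} [DecidableEq β] [Fintype β]

/-- A letter avoiding two given ones. -/
noncomputable def avoid2 (h : 2 ≤ Fintype.card β) (a b : Option (β × Bool)) : β × Bool :=
  Classical.choose (exists_avoid h (a.toList ++ b.toList) (by
    simp only [List.length_append]; have := optList_length a; have := optList_length b; omega))

theorem avoid2_spec (h : 2 ≤ Fintype.card β) (a b : Option (β × Bool)) :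
    avoid2 h a b ∉ a.toList ++ b.toList :=
  Classical.choose_spec (exists_avoid h (a.toList ++ b.toList) (by
    simp only [List.length_append]; have := optList_length a; have := optList_length b; omega))

/-- Concatenate words, separated by single letters, without cancellation. -/
noncomputable def join (h : 2 ≤ Fintype.card β) : List (List (β × Bool)) → List (β × Bool)
  | [] => []
  | w :: ws =>
      w ++ avoid2 h ((join h ws).head?.map li) (w.getLast?.map li) :: join h ws

theorem red_join (h : 2 ≤ Fintype.card β) :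
    ∀ ws : List (List (β × Bool)), (∀ w ∈ ws, Red w) → Red (join h ws)
  | [], _ => List.isChain_nil
  | w :: ws, hw => by
      have hj := red_join h ws fun v hv => hw v (by simp [hv])
      have hd := avoid2_spec h ((join h ws).head?.map li) (w.getLast?.map li)
      simp only [List.mem_append, Option.mem_toList, Option.map_eq_some_iff, not_or, not_exists,
        not_and] at hd
      rw [join]
      refine red_append.2 ⟨hw w (by simp), List.isChain_cons.2 ⟨fun y hy heq => ?_, hj⟩,
        fun x hx y hy heq => ?_⟩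
      · exact hd.1 y hy (eq_li.1 heq).symm
      · simp only [List.head?_cons, Option.mem_some_iff] at hy
        subst hy
        exact hd.2 x hx heq.symm

theorem join_inj (h : 2 ≤ Fintype.card β) : ∀ ws ws' : List (List (β × Bool)),
    ws.map List.length = ws'.map List.length → join h ws = join h ws' → ws = ws'
  | [], [], _, _ => rfl
  | [], w' :: ws', hl, _ => by simp at hl
  | w :: ws, [], hl, _ => by simp at hl
  | w :: ws, w' :: ws', hl, hj => by
      simp only [List.map_cons, List.cons.injEq] at hl
      rw [join, join] at hj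
      obtain ⟨rfl, hrest⟩ := List.append_inj hj hl.1
      rw [join_inj h ws ws' hl.2 (List.cons.inj hrest).2]

theorem le_of_pow_le {a b X : ℝ} (hb : 0 < b) (h : ∀ i : ℕ, a ^ i ≤ b ^ i * X) : a ≤ b := by
  by_contra hlt
  push Not at hlt
  obtain ⟨i, hi⟩ := pow_unbounded_of_one_lt X ((one_lt_div hb).2 hlt)
  rw [div_pow, lt_div_iff₀ (pow_pos hb i)] at hi
  linarith [h i]

omit [Fintype O] in
/-- The mass of a ball grows at most polynomially, uniformly below the critical parameter. -/
theorem ball_sum (hl : Labelling G nb) (hinv : Inv G) (hrank : ∀ t, 2 ≤ Fintype.card (α t))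
    {p δ X : ℝ} (h0 : 0 ≤ p) (h1 : p ≤ 1) (hδ0 : 0 ≤ δ)
    (hδ : ∀ x y : FG α × O, x.1⁻¹ * y.1 ∈ ball 3 → δ ≤ T nb p x y)
    (hX : ∀ (S F : Finset (FG α × O)) (x : FG α × O), ∑ y ∈ F, tauIn nb S p x y ≤ X)
    (R : ℕ) (o o' : O) :
    δ ^ 2 * ∑ g ∈ ball R, T nb p (1, o) (g, o') ≤ ((R : ℝ) + 1) ^ Fintype.card κ := by
  classical
  set F : FG α → ℝ := fun g => T nb p (1, o) (g, o)
  have hF0 : ∀ g, 0 ≤ F g := fun g => T_nonneg h0 h1 _ _
  suffices hmain : δ * ∑ g ∈ ball R, F g ≤ ((R : ℝ) + 1) ^ Fintype.card κ by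
    refine le_trans ?_ hmain
    rw [pow_two, mul_assoc, mul_sum]
    refine mul_le_mul_of_nonneg_left (sum_le_sum fun g _ => ?_) hδ0
    rw [mul_comm]
    refine le_trans (mul_le_mul_of_nonneg_left (hδ (g, o') (g, o) ?_) (T_nonneg h0 h1 _ _))
      (T_trans hl h0 h1 _ _ _)
    simp [mem_ball]
  let Hp : List (FG α) → FG α := fun l t =>
    FreeGroup.mk (join (hrank t) (l.map fun g => (g t).toWord))
  have hchain : ∀ l : List (FG α), (l.map fun g => δ * F g).prod ≤ F (Hp l) := by
    intro l
    induction l with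
    | nil =>
      have : Hp [] = 1 := by funext t; exact FreeGroup.one_eq_mk.symm
      rw [this, List.map_nil, List.prod_nil]
      exact (T_self h0 h1 _).ge
    | cons w ws ih =>
      set D : FG α := fun t => FreeGroup.mk [avoid2 (hrank t)
        ((join (hrank t) (ws.map fun g => (g t).toWord)).head?.map li)
        ((w t).toWord.getLast?.map li)] with hD
      have hH : Hp (w :: ws) = w * D * Hp ws := by
        funext t
        simp only [Hp, hD, Pi.mul_apply, List.map_cons, join]
        rw [← FreeGroup.mul_mk, FreeGroup.mk_toWord, mul_assoc, FreeGroup.mul_mk,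
          List.singleton_append]
      have hD3 : ∀ t, (D t).norm ≤ 3 := fun t => FreeGroup.norm_mk_le.trans (by simp)
      rw [List.map_cons, List.prod_cons, hH]
      refine (mul_le_mul_of_nonneg_left ih (mul_nonneg hδ0 (hF0 w))).trans ?_
      have e : F (Hp ws) = T nb p (w * D, o) (w * D * Hp ws, o) := by
        have := T_tr hl hinv (w * D) h0 h1 ((1 : FG α), o) (Hp ws, o)
        simp only [tr, mul_one] at this
        exact this.symm
      rw [e, mul_comm δ]
      refine le_trans (mul_le_mul_of_nonneg_right (le_trans (mul_le_mul_of_nonneg_left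
        (hδ (w, o) (w * D, o) ?_) (hF0 w)) (T_trans hl h0 h1 _ _ _)) (T_nonneg h0 h1 _ _))
        (T_trans hl h0 h1 _ _ _)
      simp [mem_ball, hD3]
  refine le_of_pow_le (b := ((R : ℝ) + 1) ^ Fintype.card κ) (X := X) (by positivity) fun i => ?_
  rw [mul_sum, sum_pow']
  set U := Fintype.piFinset fun _ : Fin i => (ball R : Finset (FG α))
  calc ∑ f ∈ U, ∏ j, δ * F (f j)
      ≤ ∑ f ∈ U, F (Hp (List.ofFn f)) := by
        refine sum_le_sum fun f _ => ?_
        have := hchain (List.ofFn f)
        rw [List.map_ofFn, List.prod_ofFn] at this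
        exact this
    _ = ∑ g ∈ U.image (fun f => Hp (List.ofFn f)),
          ((U.filter fun f => Hp (List.ofFn f) = g).card : ℝ) * F g := by
        rw [← sum_fiberwise_of_maps_to (g := fun f => Hp (List.ofFn f))
          (fun f hf => mem_image_of_mem (fun f => Hp (List.ofFn f)) hf)]
        refine sum_congr rfl fun g _ => ?_
        rw [sum_congr rfl fun f hf => congrArg F (mem_filter.1 hf).2, sum_const, nsmul_eq_mul]
    _ ≤ ∑ g ∈ U.image (fun f => Hp (List.ofFn f)),
          (((R : ℝ) + 1) ^ Fintype.card κ) ^ i * F g := by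
        refine sum_le_sum fun g _ => mul_le_mul_of_nonneg_right ?_ (hF0 g)
        let Φ : (Fin i → FG α) → (κ × Fin i → Fin (R + 1)) := fun f q =>
          ⟨min ((f q.2 q.1).norm) R, by omega⟩
        have hc : (U.filter fun f => Hp (List.ofFn f) = g).card
            ≤ (univ : Finset (κ × Fin i → Fin (R + 1))).card := by
          refine card_le_card_of_injOn Φ (fun f _ => mem_univ _) fun f hf f' hf' hΦ => ?_
          rw [mem_coe, mem_filter, Fintype.mem_piFinset] at hf hf'
          funext j t
          have hj := congrFun (hf.2.trans hf'.2.symm) t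
          have hw := fun f : Fin i → FG α => red_join (hrank t)
            ((List.ofFn f).map fun g => (g t).toWord) fun w hw => by
              obtain ⟨g, -, rfl⟩ := List.mem_map.1 hw; exact red_toWord _
          replace hj := congrArg FreeGroup.toWord hj
          rw [toWord_mk' (hw f), toWord_mk' (hw f')] at hj
          have hlen : ∀ j, ((f j) t).norm = ((f' j) t).norm := fun j => by
            have := congrArg Fin.val (congrFun hΦ (t, j))
            simp only [Φ] at this
            have a1 := mem_ball.1 (hf.1 j) t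
            have a2 := mem_ball.1 (hf'.1 j) t
            omega
          have hinj := join_inj (hrank t) _ _ (by
            simp only [List.map_ofFn]
            exact congrArg List.ofFn (funext fun j => hlen j)) hj
          rw [List.map_ofFn, List.map_ofFn] at hinj
          exact FreeGroup.toWord_injective (congrFun (List.ofFn_injective hinj) j)
        rw [card_univ, Fintype.card_fun, Fintype.card_prod, Fintype.card_fin, Fintype.card_fin,
          pow_mul] at hc
        calc ((U.filter fun f => Hp (List.ofFn f) = g).card : ℝ)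
            ≤ (((R + 1) ^ Fintype.card κ) ^ i : ℕ) := by exact_mod_cast hc
          _ = _ := by push_cast; rfl
    _ ≤ _ := by
        rw [← mul_sum]
        refine mul_le_mul_of_nonneg_left ?_ (by positivity)
        refine le_of_le_of_eq ?_ rfl
        have hset := sum_T_le hl h0 h1 ((1 : FG α), o)
          ((U.image fun f => Hp (List.ofFn f)).image fun g => (g, o)) (fun S => hX S _ _)
        rwa [sum_image fun a _ b _ h => congrArg Prod.fst h] at hset

end Balls

end Vale.Agent.P165.FF
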