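import Mathlib

/-!
# Reduced words, cancellation, padding and letter insertion
-/

namespace Vale.Agent.P165.FF

open Finset FreeGroup

variable {α : Type}

/-- The inverse letter. -/
def li (x : α × Bool) : α × Bool := (x.1, !x.2)

theorem li_li (x : α × Bool) : li (li x) = x := by simp [li]

theorem li_ne (x : α × Bool) : li x ≠ x := fun h => by
  have := congrArg Prod.snd h
  simp [li] at this

theorem eq_li {x y : α × Bool} : x = li y ↔ y = li x :=
  ⟨fun h => by rw [h, li_li], fun h => by rw [h, li_li]⟩

/-- No letter is followed by its inverse. -/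
def Red (w : List (α × Bool)) : Prop := w.IsChain fun x y => y ≠ li x

theorem red_iff (w : List (α × Bool)) : IsReduced w ↔ Red w := by
  refine List.IsChain.iff fun a b => ?_
  obtain ⟨a1, a2⟩ := a
  obtain ⟨b1, b2⟩ := b
  simp only [li, ne_eq, Prod.ext_iff, not_and]
  constructor
  · intro h h1 h2
    have := h h1.symm
    subst this; simp at h2
  · intro h h1
    have h2 := h h1.symm
    cases a2 <;> cases b2 <;> simp_all

theorem red_append {s t : List (α × Bool)} :
    Red (s ++ t) ↔ Red s ∧ Red t ∧ ∀ x ∈ s.getLast?, ∀ y ∈ t.head?, y ≠ li x :=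
  List.isChain_append

theorem invRev_eq (w : List (α × Bool)) : invRev w = (w.map li).reverse := rfl

theorem red_invRev {w : List (α × Bool)} (h : Red w) : Red (invRev w) := by
  rw [invRev_eq]
  unfold Red at h ⊢
  rw [List.isChain_reverse, List.isChain_map]
  refine h.imp fun a b hab heq => hab ?_
  rw [li_li] at heq
  exact heq.symm

theorem head_invRev (w : List (α × Bool)) : (invRev w).head? = w.getLast?.map li := by
  rw [invRev_eq, List.head?_reverse, List.getLast?_map]

theorem getLast_invRev (w : List (α × Bool)) : (invRev w).getLast? = w.head?.map li := by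
  rw [invRev_eq, List.getLast?_reverse, List.head?_map]

theorem red_drop {w : List (α × Bool)} (h : Red w) (n : ℕ) : Red (w.drop n) := h.drop n

theorem red_take {w : List (α × Bool)} (h : Red w) (n : ℕ) : Red (w.take n) := h.take n

variable [DecidableEq α]

theorem red_toWord (g : FreeGroup α) : Red g.toWord := (red_iff _).1 isReduced_toWord

theorem toWord_mk' {w : List (α × Bool)} (h : Red w) : (mk w).toWord = w := by
  rw [toWord_mk, ((red_iff _).2 h).reduce_eq]

/-- The length of the common prefix. -/
def lcp : List (α × Bool) → List (α × Bool) → ℕ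
  | a :: s, b :: t => if a = b then lcp s t + 1 else 0
  | _, _ => 0

theorem lcp_spec : ∀ s t : List (α × Bool),
    lcp s t ≤ s.length ∧ lcp s t ≤ t.length ∧ s.take (lcp s t) = t.take (lcp s t) ∧
      ∀ x ∈ (s.drop (lcp s t)).head?, ∀ y ∈ (t.drop (lcp s t)).head?, x ≠ y
  | [], t => by simp [lcp]
  | a :: s, [] => by simp [lcp]
  | a :: s, b :: t => by
      by_cases h : a = b
      · obtain ⟨h1, h2, h3, h4⟩ := lcp_spec s t
        simp only [lcp, h, if_true, List.length_cons, List.take_succ_cons, List.drop_succ_cons]
        exact ⟨by omega, by omega, by rw [h3], h4⟩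
      · simp [lcp, h]

theorem lcp_comm : ∀ s t : List (α × Bool), lcp s t = lcp t s
  | [], t => by cases t <;> simp [lcp]
  | a :: s, [] => by simp [lcp]
  | a :: s, b :: t => by
      by_cases h : a = b
      · simp [lcp, h, lcp_comm s t]
      · simp [lcp, h, Ne.symm h]

theorem lcp_append : ∀ p s t : List (α × Bool), lcp (p ++ s) (p ++ t) = p.length + lcp s t
  | [], s, t => by simp
  | a :: p, s, t => by simp [lcp, lcp_append p s t]; omega

theorem lcp_zero : ∀ s t : List (α × Bool),
    (∀ x ∈ s.head?, ∀ y ∈ t.head?, x ≠ y) → lcp s t = 0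
  | [], t, _ => by cases t <;> simp [lcp]
  | a :: s, [], _ => by simp [lcp]
  | a :: s, b :: t, h => by simp [lcp, h a (by simp) b (by simp)]

/-- The reduced word of `s⁻¹ t`. -/
def rel (s t : List (α × Bool)) : List (α × Bool) :=
  invRev (s.drop (lcp s t)) ++ t.drop (lcp s t)

theorem mk_rel (s t : List (α × Bool)) : mk (rel s t) = (mk s)⁻¹ * mk t := by
  obtain ⟨-, -, h3, -⟩ := lcp_spec s t
  set p := lcp s t with hp
  have hs : mk s = mk (s.take p) * mk (s.drop p) := by rw [mul_mk, List.take_append_drop]
  have ht : mk t = mk (s.take p) * mk (t.drop p) := by rw [h3, mul_mk, List.take_append_drop]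
  rw [rel, ← hp, ← mul_mk, ← inv_mk, hs, ht]
  group

theorem red_rel {s t : List (α × Bool)} (hs : Red s) (ht : Red t) : Red (rel s t) := by
  obtain ⟨-, -, -, h4⟩ := lcp_spec s t
  refine red_append.2 ⟨red_invRev (red_drop hs _), red_drop ht _, fun x hx y hy heq => ?_⟩
  rw [getLast_invRev, Option.mem_def, Option.map_eq_some_iff] at hx
  obtain ⟨z, hz, rfl⟩ := hx
  rw [li_li] at heq
  exact h4 z hz y hy heq.symm

theorem toWord_inv_mul (x y : FreeGroup α) : (x⁻¹ * y).toWord = rel x.toWord y.toWord := by
  conv_lhs => rw [show x⁻¹ * y = (mk x.toWord)⁻¹ * mk y.toWord by rw [mk_toWord, mk_toWord],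
    ← mk_rel]
  exact toWord_mk' (red_rel (red_toWord x) (red_toWord y))

theorem length_rel (s t : List (α × Bool)) :
    (rel s t).length + 2 * lcp s t = s.length + t.length := by
  obtain ⟨h1, h2, -, -⟩ := lcp_spec s t
  simp only [rel, List.length_append, invRev_length, List.length_drop]
  omega

theorem invRev_rel (s t : List (α × Bool)) : invRev (rel s t) = rel t s := by
  rw [rel, rel, invRev_append, invRev_invRev, lcp_comm s t]

/-- The second factor of a cancelled product is read off the product and the first factor. -/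
theorem toWord_split (x y : FreeGroup α) :
    y.toWord = x.toWord.take ((x.norm + y.norm - (x⁻¹ * y).norm) / 2) ++
      (x⁻¹ * y).toWord.drop (x.norm - (x.norm + y.norm - (x⁻¹ * y).norm) / 2) := by
  obtain ⟨h1, -, h3, -⟩ := lcp_spec x.toWord y.toWord
  have hl := length_rel x.toWord y.toWord
  rw [← toWord_inv_mul] at hl
  have he : (x.norm + y.norm - (x⁻¹ * y).norm) / 2 = lcp x.toWord y.toWord := by
    simp only [FreeGroup.norm]; omega
  rw [he, toWord_inv_mul, rel, h3, List.drop_left' (by simp [FreeGroup.norm, invRev_length])]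
  exact (List.take_append_drop _ _).symm

/-- A short jump onto the part of the tree below `P` lands near `P`. -/
theorem norm_cut {P : List (α × Bool)} {w w' : FreeGroup α} (hw : ¬ P <+: w.toWord)
    (hw' : P <+: w'.toWord) : ((mk P)⁻¹ * w').norm < (w⁻¹ * w').norm := by
  obtain ⟨c, hc⟩ := hw'
  have e1 : (mk P)⁻¹ * w' = mk c := by
    rw [← mk_toWord (x := w'), ← hc, ← mul_mk, inv_mul_cancel_left]
  have hb : ((mk P)⁻¹ * w').norm ≤ c.length := by rw [e1]; exact norm_mk_le
  obtain ⟨h1, h2, h3, -⟩ := lcp_spec w.toWord w'.toWord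
  have hl := length_rel w.toWord w'.toWord
  rw [← toWord_inv_mul] at hl
  have hlt : lcp w.toWord w'.toWord < P.length := by
    by_contra hle
    push Not at hle
    refine hw ?_
    have : P <+: w'.toWord.take (lcp w.toWord w'.toWord) :=
      List.prefix_take_iff.2 ⟨⟨c, hc⟩, hle⟩
    rw [← h3] at this
    exact this.trans (List.take_prefix _ _)
  have hlen : w'.toWord.length = P.length + c.length := by rw [← hc, List.length_append]
  simp only [FreeGroup.norm] at hb ⊢
  omega

variable [Fintype α]

/-- Words of length at most `n`. -/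
def wordsLE : ℕ → Finset (List (α × Bool))
  | 0 => {[]}
  | n + 1 => insert [] (((univ : Finset (α × Bool)) ×ˢ wordsLE n).image fun q => q.1 :: q.2)

theorem mem_wordsLE : ∀ {n : ℕ} {w : List (α × Bool)}, w.length ≤ n → w ∈ wordsLE n
  | 0, w, h => by simp [wordsLE, List.length_eq_zero_iff.1 (Nat.le_zero.1 h)]
  | n + 1, [], _ => by simp [wordsLE]
  | n + 1, a :: w, h => by
      refine mem_insert_of_mem (mem_image.2 ⟨(a, w), ?_, rfl⟩)
      simp only [List.length_cons] at h
      simp [mem_wordsLE (n := n) (w := w) (by omega)]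

/-- Elements of length at most `n`. -/
def ballF (n : ℕ) : Finset (FreeGroup α) := (wordsLE n).image mk

theorem mem_ballF {n : ℕ} {g : FreeGroup α} (h : g.norm ≤ n) : g ∈ ballF n :=
  mem_image.2 ⟨g.toWord, mem_wordsLE h, mk_toWord⟩

/-- A letter avoiding a short list. -/
theorem exists_avoid (h : 2 ≤ Fintype.card α) (s : List (α × Bool)) (hs : s.length ≤ 3) :
    ∃ x, x ∉ s := by
  by_contra hall
  push Not at hall
  have h1 : (univ : Finset (α × Bool)) ⊆ s.toFinset := fun x _ => List.mem_toFinset.2 (hall x)
  have h2 := (card_le_card h1).trans (List.toFinset_card_le s)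
  rw [card_univ, Fintype.card_prod, Fintype.card_bool] at h2
  omega

theorem optList_length {β : Type} (o : Option β) : o.toList.length ≤ 1 := by
  cases o <;> simp

/-- Padding makes every word begin and end with the same letter. -/
theorem exists_pad (h : 2 ≤ Fintype.card α) (a : α × Bool) {u : List (α × Bool)} (hu : Red u) :
    ∃ l r : List (α × Bool), l.length = 2 ∧ r.length = 2 ∧ Red (l ++ (u ++ r)) ∧
      (l ++ (u ++ r)).head? = some a ∧ (l ++ (u ++ r)).getLast? = some a := by
  obtain ⟨x, hx⟩ := exists_avoid h (li a :: (u.head?.map li).toList) (by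
    simp only [List.length_cons]; have := optList_length (u.head?.map li); omega)
  simp only [List.mem_cons, Option.mem_toList, Option.map_eq_some_iff, not_or,
    not_exists, not_and] at hx
  obtain ⟨y, hy⟩ := exists_avoid h (li a :: ((x :: u).getLast?.map li).toList) (by
    simp only [List.length_cons]; have := optList_length ((x :: u).getLast?.map li); omega)
  simp only [List.mem_cons, Option.mem_toList, Option.map_eq_some_iff, not_or,
    not_exists, not_and] at hy
  refine ⟨[a, x], [y, a], rfl, rfl, ?_, rfl, by
    rw [show [a, x] ++ (u ++ [y, a]) = ([a, x] ++ u ++ [y]) ++ [a] by simp, List.getLast?_concat]⟩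
  have h1 : Red (x :: u) := List.isChain_cons.2 ⟨fun z hz heq => hx.2 z hz (eq_li.1 heq).symm, hu⟩
  have h2 : Red ((x :: u) ++ [y, a]) := by
    refine red_append.2 ⟨h1, ?_, fun z hz w hw => ?_⟩
    · show List.IsChain _ _
      simp only [List.isChain_cons_cons, List.isChain_singleton, and_true]
      exact fun heq => hy.1 (eq_li.1 heq)
    · simp only [List.head?_cons, Option.mem_some_iff] at hw
      subst hw
      exact fun heq => hy.2 z hz heq.symm
  show List.IsChain _ (a :: (x :: (u ++ [y, a])))
  exact List.isChain_cons.2 ⟨fun z hz => by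
    simp only [List.head?_cons, Option.mem_some_iff] at hz
    subst hz; exact hx.1, h2⟩

omit [DecidableEq α] [Fintype α] in
/-- Insert the letter `x j` before position `j` for every marked `j`. -/
def ins (x : ℕ → α × Bool) (I : ℕ → Bool) : ℕ → List (α × Bool) → List (α × Bool)
  | _, [] => []
  | i, a :: t => bif I i then x i :: a :: ins x I (i + 1) t else a :: ins x I (i + 1) t

omit [Fintype α] [DecidableEq α] in
theorem ins_none {x : ℕ → α × Bool} {I : ℕ → Bool} : ∀ (l : List (α × Bool)) (i : ℕ),
    (∀ j, i ≤ j → j < i + l.length → I j = false) → ins x I i l = l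
  | [], _, _ => rfl
  | a :: t, i, h => by
      rw [ins, h i le_rfl (by simp), cond_false,
        ins_none t (i + 1) fun j h1 h2 => h j (by omega) (by simp at h2 ⊢; omega)]

omit [Fintype α] [DecidableEq α] in
theorem ins_congr {x : ℕ → α × Bool} {I J : ℕ → Bool} : ∀ (l : List (α × Bool)) (i : ℕ),
    (∀ j, i ≤ j → I j = J j) → ins x I i l = ins x J i l
  | [], _, _ => rfl
  | a :: t, i, h => by
      rw [ins, ins, h i le_rfl, ins_congr t (i + 1) fun j hj => h j (by omega)]

omit [Fintype α] [DecidableEq α] in
theorem ins_append {x : ℕ → α × Bool} {I : ℕ → Bool} : ∀ (s t : List (α × Bool)) (i : ℕ),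
    ins x I i (s ++ t) = ins x I i s ++ ins x I (i + s.length) t
  | [], t, i => by simp [ins]
  | a :: s, t, i => by
      rw [List.cons_append, ins, ins, ins_append s t (i + 1), List.length_cons,
        show i + 1 + s.length = i + (s.length + 1) by omega]
      cases I i <;> simp

omit [Fintype α] [DecidableEq α] in
theorem ins_inj {x : ℕ → α × Bool} {I J : ℕ → Bool} : ∀ (l : List (α × Bool)) (i : ℕ),
    (∀ j, ∀ a ∈ l[j]?, x (i + j) ≠ a) → ins x I i l = ins x J i l →
      ∀ j, i ≤ j → j < i + l.length → I j = J j
  | [], i, _, _ => fun j h1 h2 => by simp at h2; omega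
  | a :: t, i, hne, heq => by
      have h0 := hne 0 a (by simp)
      rw [Nat.add_zero] at h0
      have hI : I i = J i ∧ ins x I (i + 1) t = ins x J (i + 1) t := by
        rw [ins, ins] at heq
        cases hI : I i <;> cases hJ : J i <;> rw [hI, hJ] at heq <;>
          simp only [cond_true, cond_false, List.cons.injEq] at heq
        · exact ⟨rfl, heq.2⟩
        · exact absurd heq.1.symm h0
        · exact absurd heq.1 h0
        · exact ⟨rfl, heq.2.2⟩
      have ih := ins_inj t (i + 1) (fun j b hb => by
        have := hne (j + 1) b (by simpa using hb)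
        rwa [show i + 1 + j = i + (j + 1) by omega]) hI.2
      intro j h1 h2
      rcases eq_or_lt_of_le h1 with rfl | h
      · exact hI.1
      · exact ih j h (by simp at h2; omega)

omit [Fintype α] [DecidableEq α] in
theorem ins_red {x : ℕ → α × Bool} {I : ℕ → Bool} : ∀ (l : List (α × Bool)) (i : ℕ), Red l →
    (∀ j, ∀ a ∈ l[j]?, x (i + j) ≠ li a) → (∀ j, ∀ a ∈ l[j]?, x (i + j + 1) ≠ li a) →
      Red (ins x I i l) ∧ ∀ y ∈ (ins x I i l).head?, y = x i ∨ y ∈ l.head?
  | [], i, _, _, _ => ⟨List.isChain_nil, by simp [ins]⟩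
  | a :: t, i, hl, h1, h2 => by
      obtain ⟨ht, hh⟩ := ins_red t (i + 1) (List.isChain_cons.1 hl).2
        (fun j b hb => by
          have := h1 (j + 1) b (by simpa using hb)
          rwa [show i + 1 + j = i + (j + 1) by omega])
        (fun j b hb => by
          have := h2 (j + 1) b (by simpa using hb)
          rwa [show i + 1 + j + 1 = i + (j + 1) + 1 by omega])
      have hat : Red (a :: ins x I (i + 1) t) := by
        refine List.isChain_cons.2 ⟨fun y hy => ?_, ht⟩
        rcases hh y hy with rfl | hy'
        · have := h2 0 a (by simp); simpa using this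
        · exact (List.isChain_cons.1 hl).1 y hy'
      rw [ins]
      cases hI : I i
      · simp only [cond_false]; exact ⟨hat, fun y hy => Or.inr (by simpa using hy)⟩
      · simp only [cond_true]
        refine ⟨List.isChain_cons.2 ⟨fun y hy => ?_, hat⟩, fun y hy => Or.inl (by simp at hy; exact hy.symm)⟩
        simp only [List.head?_cons, Option.mem_some_iff] at hy
        subst hy
        have := h1 0 a (by simp)
        exact fun heq => this (eq_li.1 heq)

end Vale.Agent.P165.FF
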