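import Vale.Agent.P165.FF.BK
import Vale.Agent.P165.FF.Words

/-!
# Products of free groups acting on a graph: basic definitions
-/

namespace Vale.Agent.P165.FF

open Finset

variable {κ : Type} {α : κ → Type}

/-- A product of free groups. -/
abbrev FG (α : κ → Type) : Type := ∀ t, FreeGroup (α t)

/-- Translation of `Γ × O` by a group element. -/
def tr {Γ O : Type} [Group Γ] (g : Γ) (x : Γ × O) : Γ × O := (g * x.1, x.2)

/-- Translations are graph automorphisms. -/
def Inv {Γ O : Type} [Group Γ] (G : SimpleGraph (Γ × O)) : Prop :=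
  ∀ (g : Γ) (x y : Γ × O), G.Adj (tr g x) (tr g y) ↔ G.Adj x y

/-- The connection probability, as a supremum over finite regions. -/
noncomputable def T {V ι : Type} [DecidableEq V] [Fintype ι] (nb : V → ι → V) (p : ℝ) (x y : V) :
    ℝ :=
  ⨆ S : Finset V, tauIn nb S p x y

theorem mem_ballF_iff {β : Type} [DecidableEq β] [Fintype β] {n : ℕ} {g : FreeGroup β} :
    g ∈ ballF n ↔ g.norm ≤ n := by
  refine ⟨fun h => ?_, mem_ballF⟩
  have hlen : ∀ (n : ℕ) (w : List (β × Bool)), w ∈ wordsLE n → w.length ≤ n := by
    intro n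
    induction n with
    | zero => intro w hw; simp [wordsLE] at hw; simp [hw]
    | succ n ih =>
      intro w hw
      rcases mem_insert.1 hw with rfl | hw
      · simp
      · obtain ⟨⟨a, v⟩, hq, rfl⟩ := mem_image.1 hw
        have := ih v (mem_product.1 hq).2
        simp only [List.length_cons]; omega
  obtain ⟨w, hw, rfl⟩ := mem_image.1 h
  exact FreeGroup.norm_mk_le.trans (hlen n w hw)

variable [Fintype κ] [DecidableEq κ] [∀ t, DecidableEq (α t)] [∀ t, Fintype (α t)]

/-- The elements with all coordinates of length at most `R`. -/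
def ball (R : ℕ) : Finset (FG α) := Fintype.piFinset fun _ => ballF R

theorem mem_ball {R : ℕ} {g : FG α} : g ∈ ball R ↔ ∀ t, (g t).norm ≤ R := by
  simp [ball, Fintype.mem_piFinset, mem_ballF_iff]

end Vale.Agent.P165.FF
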