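import Vale.Agent.P165.FF.Words

/-!
# Reading a chain of words back from its product

A chain is `w₀, w₁, …, w_k, v` with three-letter separators `D_l`; its product is the word
`rel w₀ w₁ ++ D₁ ++ rel w₁ w₂ ++ ⋯ ++ D_k ++ rel w_k v`.  Scanning from the left, the position of
a separator is one of logarithmically many reflection centres unless the common prefix grows
there.  Scanning from the right, the same holds with growth replaced by decrease.
-/

namespace Vale.Agent.P165.FF

open Finset FreeGroup

variable {α : Type} [DecidableEq α]

/-- The product word of a chain. -/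
def code : List (α × Bool) → List (List (α × Bool) × List (α × Bool)) →
    List (α × Bool) → List (α × Bool)
  | w0, [], fin => rel w0 fin
  | w0, (w, D) :: rest, fin => rel w0 w ++ D ++ code w rest fin

/-- A separator that the left scan recognises. -/
def Sep (q : List (α × Bool) × List (α × Bool)) : Prop :=
  q.2.length = 3 ∧ Red q.1 ∧ ∀ x ∈ q.2.head?, ∀ y ∈ q.1.getLast?, x ≠ li y

/-- How often the common prefix grows along a list of words. -/
def asc : List (List (α × Bool)) → ℕ
  | a :: b :: c :: t => (if lcp a b < lcp b c then 1 else 0) + asc (b :: c :: t)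
  | _ => 0

/-- How often the common prefix shrinks along a list of words. -/
def desc : List (List (α × Bool)) → ℕ
  | a :: b :: c :: t => (if lcp b c < lcp a b then 1 else 0) + desc (b :: c :: t)
  | _ => 0

theorem asc_snoc : ∀ (l : List (List (α × Bool))) (a b c : List (α × Bool)),
    asc (l ++ [a, b, c]) = asc (l ++ [a, b]) + if lcp a b < lcp b c then 1 else 0
  | [], a, b, c => by simp [asc]
  | [x], a, b, c => by simp only [List.cons_append, List.nil_append, asc]; omega
  | [x, y], a, b, c => by simp only [List.cons_append, List.nil_append, asc]; omega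
  | x :: y :: z :: l, a, b, c => by
      have := asc_snoc (y :: z :: l) a b c
      simp only [List.cons_append, asc] at this ⊢
      omega

theorem asc_reverse : ∀ l : List (List (α × Bool)), asc l.reverse = desc l
  | [] => rfl
  | [_] => rfl
  | [_, _] => rfl
  | a :: b :: c :: t => by
      have ih := asc_reverse (b :: c :: t)
      simp only [List.reverse_cons, List.append_assoc, List.cons_append, List.nil_append] at ih ⊢
      rw [asc_snoc, ih, desc, lcp_comm c b, lcp_comm b a]
      ring

theorem asc_add_desc : ∀ l : List (List (α × Bool)), asc l + desc l ≤ l.length - 2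
  | [] => by simp [asc, desc]
  | [_] => by simp [asc, desc]
  | [_, _] => by simp [asc, desc]
  | a :: b :: c :: t => by
      have ih := asc_add_desc (b :: c :: t)
      simp only [asc, desc, List.length_cons] at ih ⊢
      split_ifs <;> omega

theorem code_snoc (w D fin : List (α × Bool)) :
    ∀ (l : List (List (α × Bool) × List (α × Bool))) (w0 : List (α × Bool)),
      code w0 (l ++ [(w, D)]) fin = code w0 l w ++ D ++ rel w fin
  | [], w0 => rfl
  | (w', D') :: l, w0 => by
      rw [List.cons_append, code, code, code_snoc w D fin l w']
      simp only [List.append_assoc]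

theorem invRev_code (fin : List (α × Bool)) :
    ∀ (l : List (List (α × Bool) × List (α × Bool))) (w0 : List (α × Bool)),
      invRev (code w0 l fin) = code fin (l.reverse.map fun q => (q.1, invRev q.2)) w0
  | [], w0 => invRev_rel w0 fin
  | (w, D) :: l, w0 => by
      rw [List.reverse_cons, List.map_append, List.map_singleton, code_snoc, code, invRev_append,
        invRev_append, invRev_code fin l w, invRev_rel, List.append_assoc]

theorem length_code (fin : List (α × Bool)) :
    ∀ (l : List (List (α × Bool) × List (α × Bool))) (w0 : List (α × Bool)) (R : ℕ),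
      w0.length ≤ R → fin.length ≤ R → (∀ q ∈ l, q.1.length ≤ R ∧ q.2.length = 3) →
        (code w0 l fin).length ≤ (l.length + 1) * (2 * R + 3)
  | [], w0, R, h0, hf, _ => by
      have := length_rel w0 fin
      simp only [code, List.length_nil]
      omega
  | (w, D) :: l, w0, R, h0, hf, hl => by
      obtain ⟨hw, hD⟩ := hl (w, D) (by simp)
      have ih := length_code fin l w R hw hf fun q hq => hl q (by simp [hq])
      have := length_rel w0 w
      simp only [code, List.length_append, List.length_cons]
      rw [Nat.succ_mul]
      simp only at hw hD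
      omega

theorem mk_code (fin : List (α × Bool)) :
    ∀ (l : List (List (α × Bool) × List (α × Bool))) (w0 : List (α × Bool)),
      FreeGroup.mk w0 * FreeGroup.mk (code w0 l fin) =
        (l.map fun q => FreeGroup.mk q.1 * FreeGroup.mk q.2 * (FreeGroup.mk q.1)⁻¹).prod *
          FreeGroup.mk fin
  | [], w0 => by rw [code, mk_rel, mul_inv_cancel_left, List.map_nil, List.prod_nil, one_mul]
  | (w, D) :: l, w0 => by
      have ih := mk_code fin l w
      rw [List.map_cons, List.prod_cons, mul_assoc _ (List.prod _) (FreeGroup.mk fin), ← ih, code,
        ← mul_mk, ← mul_mk, mk_rel]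
      group

/-- The reflection at distance `A` in a word. -/
def Mirror (S : List (α × Bool)) (A : ℕ) : Prop :=
  2 * A + 2 < S.length ∧ ∀ i < A, S[2 * A + 2 - i]? = S[i]?.map li

instance (S : List (α × Bool)) (A : ℕ) : Decidable (Mirror S A) :=
  inferInstanceAs (Decidable (_ ∧ _))

omit [DecidableEq α] in
/-- Three reflection centres cannot be close together. -/
theorem mirror_three {S : List (α × Bool)} {A A' A'' : ℕ} (h : Mirror S A) (h' : Mirror S A')
    (h'' : Mirror S A'') (ha : A + 2 ≤ A') (hb : A' + 2 ≤ A'') : A + 1 < A'' - A' := by
  by_contra hle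
  push Not at hle
  set i := A + 1 - (A'' - A') with hi
  have e1 := h.2 i (by omega)
  have e2 := h'.2 i (by omega)
  have hj : A + 1 + (A'' - A') < A'' := by omega
  have e3 := h''.2 (A + 1 + (A'' - A')) hj
  rw [show 2 * A + 2 - i = A + 1 + (A'' - A') by omega] at e1
  rw [show 2 * A'' + 2 - (A + 1 + (A'' - A')) = 2 * A' + 2 - i by omega, e2, e1] at e3
  have hlt : i < S.length := by have := h.1; omega
  rw [List.getElem?_eq_getElem hlt] at e3
  simp only [Option.map_some, Option.some.injEq, li_li] at e3
  exact li_ne _ e3

/-- The possible ascent lengths at a point where the common prefix does not grow. -/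
def cand (S : List (α × Bool)) : Finset ℕ := (range S.length).filter (Mirror S)

theorem card_cand (S : List (α × Bool)) : (cand S).card ≤ 4 * (Nat.log 2 S.length + 1) := by
  refine (card_le_mul_card_image (f := fun A => Nat.log 2 (A + 1)) (cand S) 4 ?_).trans
    (Nat.mul_le_mul_left 4 ?_)
  · intro l _
    by_contra hgt
    push Not at hgt
    set T := (cand S).filter fun A => Nat.log 2 (A + 1) = l
    obtain ⟨T', hT', hc⟩ := exists_subset_card_eq (s := T) (n := 5) (by omega)
    let f := T'.orderEmbOfFin hc
    have hf : ∀ i, Mirror S (f i) ∧ Nat.log 2 (f i + 1) = l := fun i => by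
      have := hT' (orderEmbOfFin_mem T' hc i)
      exact ⟨(mem_filter.1 (mem_filter.1 this).1).2, (mem_filter.1 this).2⟩
    have hmono : ∀ i j : Fin 5, i < j → f i < f j := fun i j hij => f.strictMono hij
    have h01 := hmono 0 1 (by decide)
    have h12 := hmono 1 2 (by decide)
    have h23 := hmono 2 3 (by decide)
    have h34 := hmono 3 4 (by decide)
    have hkey := mirror_three (hf 0).1 (hf 2).1 (hf 4).1 (by omega) (by omega)
    have hlo : 2 ^ l ≤ f 0 + 1 := by
      have := Nat.pow_log_le_self 2 (x := f 0 + 1) (by omega)
      rwa [(hf 0).2] at this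
    have hhi : f 4 + 1 < 2 ^ (l + 1) := by
      have := Nat.lt_pow_succ_log_self (b := 2) (by omega) (f 4 + 1)
      rwa [(hf 4).2] at this
    rw [pow_succ] at hhi
    omega
  · refine (card_le_card (t := range (Nat.log 2 S.length + 1)) ?_).trans (by rw [card_range])
    intro l hl
    obtain ⟨A, hA, rfl⟩ := mem_image.1 hl
    have := (mem_filter.1 hA).1
    rw [mem_range] at this ⊢
    exact Nat.lt_succ_of_le (Nat.log_mono_right (by omega))

/-- All readings of `k` steps with at most `m` free choices, from the current word `w0`. -/
def parse : ℕ → ℕ → List (α × Bool) → List (α × Bool) → Finset (List (List (α × Bool)))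
  | 0, _, _, _ => {[]}
  | k + 1, m, V, w0 =>
      let S := V.drop (lcp V (invRev w0))
      let base := w0.take (w0.length - lcp V (invRev w0))
      ((cand S).biUnion fun A =>
          (parse k m (S.drop (A + 3)) (base ++ S.take A)).image fun ws => (base ++ S.take A) :: ws) ∪
        if m = 0 then ∅ else (range (S.length + 1)).biUnion fun A =>
          (parse k (m - 1) (S.drop (A + 3)) (base ++ S.take A)).image
            fun ws => (base ++ S.take A) :: ws

theorem card_parse {B : ℕ} : ∀ (k m : ℕ) (V w0 : List (α × Bool)), V.length ≤ B →
    (parse k m V w0).card ≤ (8 * (Nat.log 2 B + 1)) ^ k * (B + 1) ^ m := by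
  intro k
  induction k with
  | zero =>
    intro m V w0 _
    simp only [parse, card_singleton, pow_zero, one_mul]
    exact Nat.one_le_pow _ _ (by omega)
  | succ k ih =>
    intro m V w0 hV
    simp only [parse]
    set S := V.drop (lcp V (invRev w0))
    set base := w0.take (w0.length - lcp V (invRev w0))
    set P := (8 * (Nat.log 2 B + 1)) ^ k
    have hS : S.length ≤ B := by simp [S]; omega
    have hstep : ∀ A m', ((parse k m' (S.drop (A + 3)) (base ++ S.take A)).image
        fun ws => (base ++ S.take A) :: ws).card ≤ P * (B + 1) ^ m' := fun A m' =>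
      card_image_le.trans (ih m' _ _ (by simp; omega))
    have hc : (cand S).card ≤ 4 * (Nat.log 2 B + 1) :=
      (card_cand S).trans (Nat.mul_le_mul_left 4 (by have := Nat.log_mono_right (b := 2) hS; omega))
    have h1 : ((cand S).biUnion fun A => (parse k m (S.drop (A + 3)) (base ++ S.take A)).image
        fun ws => (base ++ S.take A) :: ws).card ≤ 4 * (Nat.log 2 B + 1) * (P * (B + 1) ^ m) :=
      (card_biUnion_le_card_mul _ _ _ fun A _ => hstep A m).trans (Nat.mul_le_mul_right _ hc)
    have h2 : (if m = 0 then ∅ else (range (S.length + 1)).biUnion fun A =>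
        (parse k (m - 1) (S.drop (A + 3)) (base ++ S.take A)).image
          fun ws => (base ++ S.take A) :: ws).card ≤ P * (B + 1) ^ m := by
      split_ifs with hm
      · simp
      · refine (card_biUnion_le_card_mul _ _ _ fun A _ => hstep A (m - 1)).trans ?_
        rw [card_range]
        calc (S.length + 1) * (P * (B + 1) ^ (m - 1))
            ≤ (B + 1) * (P * (B + 1) ^ (m - 1)) := Nat.mul_le_mul_right _ (by omega)
          _ = P * ((B + 1) * (B + 1) ^ (m - 1)) := by ring
          _ = P * (B + 1) ^ m := by
              rw [← pow_succ', show m - 1 + 1 = m by omega]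
    refine (card_union_le _ _).trans ((Nat.add_le_add h1 h2).trans ?_)
    calc 4 * (Nat.log 2 B + 1) * (P * (B + 1) ^ m) + P * (B + 1) ^ m
        = (4 * (Nat.log 2 B + 1) + 1) * (P * (B + 1) ^ m) := by ring
      _ ≤ 8 * (Nat.log 2 B + 1) * (P * (B + 1) ^ m) := Nat.mul_le_mul_right _ (by omega)
      _ = _ := by rw [pow_succ]; ring

/-- A chain is among the readings of its product word. -/
theorem mem_parse (fin : List (α × Bool)) :
    ∀ (l : List (List (α × Bool) × List (α × Bool))) (w0 : List (α × Bool)) (m : ℕ),
      Red w0 → (∀ q ∈ l, Sep q) → asc (w0 :: (l.map Prod.fst ++ [fin])) ≤ m →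
        l.map Prod.fst ∈ parse l.length m (code w0 l fin) w0
  | [], w0, m, _, _, _ => by simp [parse]
  | (w, D) :: rest, w0, m, hw0, hsep, hm => by
      obtain ⟨hD, hw, hDh⟩ := hsep (w, D) (by simp)
      simp only at hD hw hDh
      obtain ⟨hb0, hbw, hbt, hbd⟩ := lcp_spec w0 w
      set b := lcp w0 w with hb
      set a := w.drop b with ha
      have hV : code w0 ((w, D) :: rest) fin
          = invRev (w0.drop b) ++ (a ++ D ++ code w rest fin) := by
        simp only [code, rel, ← hb, ← ha, List.append_assoc]
      have hU : lcp (code w0 ((w, D) :: rest) fin) (invRev w0) = w0.length - b := by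
        have he : invRev w0 = invRev (w0.drop b) ++ invRev (w0.take b) := by
          rw [← invRev_append, List.take_append_drop]
        rw [hV, he, lcp_append, invRev_length, List.length_drop, lcp_zero]
        · rfl
        intro x hx y hy heq
        rw [head_invRev, Option.mem_def, Option.map_eq_some_iff] at hy
        obtain ⟨z, hz, rfl⟩ := hy
        rw [hbt] at hz
        subst heq
        rcases a.eq_nil_or_concat' with h0 | ⟨a', c, h0⟩
        · rw [h0, List.nil_append, List.head?_append_of_ne_nil _ (by intro h; simp [h] at hD)] at hx
          have : w.take b = w := by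
            rw [List.take_eq_self_iff]; rw [ha, List.drop_eq_nil_iff] at h0; exact h0
          rw [this] at hz
          exact hDh _ hx z hz rfl
        · have hne : a ≠ [] := by rw [h0]; simp
          rw [List.append_assoc, List.head?_append_of_ne_nil _ hne] at hx
          have hred : Red (w.take b ++ a) := by rw [ha, List.take_append_drop]; exact hw
          exact (red_append.1 hred).2.2 z hz _ hx rfl
      have hS : (code w0 ((w, D) :: rest) fin).drop (w0.length - b)
          = a ++ D ++ code w rest fin := by
        rw [hV, List.drop_left' (by simp [invRev_length])]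
      have hbase : w0.take (w0.length - (w0.length - b)) = w.take b := by
        rw [show w0.length - (w0.length - b) = b by omega, hbt]
      set A := a.length with hA
      have htake : (a ++ D ++ code w rest fin).take A = a := by
        rw [List.append_assoc, List.take_left' hA.symm]
      have hdrop : (a ++ D ++ code w rest fin).drop (A + 3) = code w rest fin :=
        List.drop_left' (by simp [hA, hD])
      have hcat : w.take b ++ a = w := by rw [ha, List.take_append_drop]
      simp only [List.map_cons, List.length_cons, parse, hU, hS, hbase, mem_union]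
      have hrec : ∀ m', asc (w :: (rest.map Prod.fst ++ [fin])) ≤ m' →
          w :: rest.map Prod.fst ∈ (parse rest.length m' ((a ++ D ++ code w rest fin).drop (A + 3))
            (w.take b ++ (a ++ D ++ code w rest fin).take A)).image
              fun ws => (w.take b ++ (a ++ D ++ code w rest fin).take A) :: ws := fun m' hm' => by
        rw [htake, hdrop, hcat]
        exact mem_image.2
          ⟨_, mem_parse fin rest w m' hw (fun q hq => hsep q (by simp [hq])) hm', rfl⟩
      -- the next word and the beginning of the remaining code
      obtain ⟨nx, tl, hnx, Y, hY⟩ : ∃ nx tl, rest.map Prod.fst ++ [fin] = nx :: tl ∧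
          ∃ Y, code w rest fin = invRev (w.drop (lcp w nx)) ++ Y := by
        rcases rest with _ | ⟨⟨w', D'⟩, rest'⟩
        · exact ⟨fin, [], rfl, _, rfl⟩
        · refine ⟨w', _, rfl, w'.drop (lcp w w') ++ D' ++ code w' rest' fin, ?_⟩
          simp only [code, rel, List.append_assoc]
      rw [List.map_cons, List.cons_append, hnx] at hm
      simp only [asc] at hm
      rw [← hnx] at hm
      by_cases hexp : b < lcp w nx
      · rw [if_pos (hb ▸ hexp)] at hm
        refine Or.inr ?_
        rw [if_neg (by omega), mem_biUnion]
        refine ⟨A, mem_range.2 ?_, hrec (m - 1) (by omega)⟩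
        simp only [List.length_append]; omega
      · rw [if_neg (hb ▸ hexp)] at hm
        refine Or.inl (mem_biUnion.2 ⟨A, ?_, hrec m (by omega)⟩)
        push Not at hexp
        have hmid : invRev (w.drop (lcp w nx))
            = invRev a ++ invRev ((w.drop (lcp w nx)).take (b - lcp w nx)) := by
          conv_lhs => rw [← List.take_append_drop (b - lcp w nx) (w.drop (lcp w nx))]
          rw [invRev_append, List.drop_drop, Nat.add_sub_cancel' hexp, ← ha]
        have hlen : 2 * A + 3 ≤ (a ++ D ++ code w rest fin).length := by
          simp only [List.length_append, hY, hmid, invRev_length, hD, ← hA]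
          omega
        refine mem_filter.2 ⟨mem_range.2 (by omega), by omega, fun i hi => ?_⟩
        simp only [hY, hmid, List.append_assoc]
        rw [          List.getElem?_append_left (l₁ := a) (i := i) hi,
          List.getElem?_append_right (by omega), List.getElem?_append_right (by omega),
          List.getElem?_append_left (by rw [invRev_length]; omega), invRev_eq,
          List.getElem?_reverse (by rw [List.length_map]; omega), List.getElem?_map]
        congr 2
        rw [List.length_map, hD]
        omega

/-- The readings of a product word from both sides. -/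
def readings (k m : ℕ) (V fin : List (α × Bool)) : Finset (List (List (α × Bool))) :=
  parse k m V [] ∪ (parse k m (invRev V) fin).image List.reverse

theorem card_readings {B k m : ℕ} {V fin : List (α × Bool)} (hV : V.length ≤ B) :
    (readings k m V fin).card ≤ 2 * ((8 * (Nat.log 2 B + 1)) ^ k * (B + 1) ^ m) := by
  refine (card_union_le _ _).trans ?_
  rw [two_mul]
  exact Nat.add_le_add (card_parse k m V [] hV)
    (card_image_le.trans (card_parse k m _ fin (by rw [invRev_length]; exact hV)))

theorem mem_readings {fin : List (α × Bool)} (hfin : Red fin)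
    {l : List (List (α × Bool) × List (α × Bool))} (hsep : ∀ q ∈ l, Sep q)
    (hsep' : ∀ q ∈ l, Sep (q.1, invRev q.2)) {m : ℕ}
    (hm : asc ([] :: (l.map Prod.fst ++ [fin])) ≤ m ∨ desc ([] :: (l.map Prod.fst ++ [fin])) ≤ m) :
    l.map Prod.fst ∈ readings l.length m (code [] l fin) fin := by
  rcases hm with h | h
  · exact mem_union_left _ (mem_parse fin l [] _ List.isChain_nil hsep h)
  · refine mem_union_right _ (mem_image.2 ⟨(l.map Prod.fst).reverse, ?_, List.reverse_reverse _⟩)
    set l' := l.reverse.map fun q => (q.1, invRev q.2) with hl'
    have h1 : l'.map Prod.fst = (l.map Prod.fst).reverse := by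
      rw [hl', List.map_map, ← List.map_reverse]; rfl
    have h2 : l'.length = l.length := by simp [hl']
    have h3 := mem_parse [] l' fin m hfin (fun q hq => by
      obtain ⟨q', hq', rfl⟩ := List.mem_map.1 hq
      exact hsep' q' (List.mem_reverse.1 hq')) (by
      rw [h1]
      have e : fin :: ((l.map Prod.fst).reverse ++ [[]])
          = ([] :: (l.map Prod.fst ++ [fin])).reverse := by simp
      rw [e, asc_reverse]
      exact h)
    rw [h1, h2, ← invRev_code fin l []] at h3
    exact h3

/-- Steady meets along the middle of a chain cost at most one free choice at each end. -/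
theorem asc_le_two {first fin : List (α × Bool)} : ∀ {ws : List (List (α × Bool))},
    asc ws = 0 → asc (first :: (ws ++ [fin])) ≤ 2 := by
  intro ws h
  rcases ws.eq_nil_or_concat' with rfl | ⟨ws', c, rfl⟩
  · simp [asc]
  rcases ws'.eq_nil_or_concat' with rfl | ⟨ws'', b, rfl⟩
  · simp only [List.nil_append, List.cons_append, asc]; split_ifs <;> omega
  have e1 : (ws'' ++ [b]) ++ [c] ++ [fin] = ws'' ++ [b, c, fin] := by simp
  have e2 : (ws'' ++ [b]) ++ [c] = ws'' ++ [b, c] := by simp
  rw [e2] at h
  rw [e1]
  have h2 : asc (first :: (ws'' ++ [b, c])) ≤ 1 := by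
    rcases ws'' with _ | ⟨a, t⟩
    · simp only [List.nil_append, asc]; split_ifs <;> omega
    · rcases t with _ | ⟨a', t⟩ <;>
        simp only [List.nil_append, List.cons_append, asc] at h ⊢ <;> split_ifs at h ⊢ <;> omega
  have h3 : asc (first :: (ws'' ++ [b, c, fin])) = asc ((first :: ws'') ++ [b, c])
      + if lcp b c < lcp c fin then 1 else 0 := asc_snoc (first :: ws'') b c fin
  rw [h3, List.cons_append]
  split_ifs <;> omega

theorem desc_le_two {first fin : List (α × Bool)} {ws : List (List (α × Bool))}
    (h : desc ws = 0) : desc (first :: (ws ++ [fin])) ≤ 2 := by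
  rw [← asc_reverse] at h ⊢
  have e : (first :: (ws ++ [fin])).reverse = fin :: (ws.reverse ++ [first]) := by simp
  rw [e]
  exact asc_le_two h

variable [Fintype α]

/-- Separators can be chosen so that both scans work and the product word is reduced. -/
theorem exists_sep (h : 2 ≤ Fintype.card α) {fin : List (α × Bool)} (hfin : Red fin) :
    ∀ (ws : List (List (α × Bool))) (w0 : List (α × Bool)), Red w0 → (∀ w ∈ ws, Red w) →
      ∃ l : List (List (α × Bool) × List (α × Bool)), l.map Prod.fst = ws ∧
        (∀ q ∈ l, Sep q ∧ Sep (q.1, invRev q.2)) ∧ Red (code w0 l fin)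
  | [], w0, h0, _ => ⟨[], rfl, by simp, red_rel h0 hfin⟩
  | w :: ws, w0, h0, hws => by
      have hw := hws w (by simp)
      obtain ⟨l, hl1, hl2, hl3⟩ := exists_sep h hfin ws w hw fun v hv => hws v (by simp [hv])
      set X := code w l fin
      obtain ⟨d3, hd3⟩ := exists_avoid h ((X.head?.map li).toList ++ w.getLast?.toList) (by
        simp only [List.length_append]
        have := optList_length (X.head?.map li)
        have := optList_length w.getLast?
        omega)
      simp only [List.mem_append, Option.mem_toList, Option.map_eq_some_iff, not_or, not_exists,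
        not_and] at hd3
      obtain ⟨d1, hd1⟩ := exists_avoid h (li d3 :: ((rel w0 w).getLast?.map li).toList ++
        (w.getLast?.map li).toList) (by
        simp only [List.length_append, List.length_cons]
        have := optList_length ((rel w0 w).getLast?.map li)
        have := optList_length (w.getLast?.map li)
        omega)
      simp only [List.cons_append, List.mem_cons, List.mem_append, Option.mem_toList,
        Option.map_eq_some_iff, not_or, not_exists, not_and] at hd1
      refine ⟨(w, [d1, d1, d3]) :: l, by simp [hl1], ?_, ?_⟩
      · intro q hq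
        rcases List.mem_cons.1 hq with rfl | hq
        · refine ⟨⟨rfl, hw, fun x hx y hy heq => ?_⟩, ⟨by simp [invRev_length], hw, fun x hx y hy heq => ?_⟩⟩
          · simp only [List.head?_cons, Option.mem_some_iff] at hx
            exact hd1.2.2 y hy (hx.trans heq).symm
          · have hh : (invRev [d1, d1, d3]).head? = some (li d3) := by simp [head_invRev]
            simp only [hh, Option.mem_some_iff] at hx
            subst hx
            have := congrArg li heq
            rw [li_li, li_li] at this
            exact hd3.2 (this ▸ hy)
        · exact hl2 q hq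
      · show Red (rel w0 w ++ [d1, d1, d3] ++ X)
        refine red_append.2 ⟨red_append.2 ⟨red_rel h0 hw, ?_, fun x hx y hy heq => ?_⟩, hl3,
          fun x hx y hy heq => ?_⟩
        · show List.IsChain _ _
          simp only [List.isChain_cons_cons, List.isChain_singleton, and_true]
          exact ⟨fun heq => li_ne d1 heq.symm, fun heq => hd1.1 (eq_li.1 heq)⟩
        · simp only [List.head?_cons, Option.mem_some_iff] at hy
          subst hy
          exact hd1.2.1 x hx heq.symm
        · simp only [List.getLast?_append, List.getLast?_cons_cons, List.getLast?_singleton,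
            Option.some_or, Option.mem_some_iff] at hx
          subst hx
          exact hd3.1 y hy (eq_li.1 heq).symm

end Vale.Agent.P165.FF
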