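import Vale.Agent.P165.FF.Sub
import Vale.Agent.P165.FF.Decode

/-!
# Chains of crossing points in a cylinder
-/

namespace Vale.Agent.P165.FF

open Finset

variable {κ : Type} [Fintype κ] [DecidableEq κ] {α : κ → Type} [∀ t, DecidableEq (α t)]
  [∀ t, Fintype (α t)] {O ι : Type} [DecidableEq O] [Fintype O] [Fintype ι]

/-- The vertices with all coordinates of length at most `n`. -/
def cyl (n : ℕ) : Finset (FG α × O) := ball n ×ˢ univ

theorem mem_cyl {n : ℕ} {x : FG α × O} : x ∈ (cyl n : Finset (FG α × O)) ↔ ∀ t, (x.1 t).norm ≤ n := by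
  simp [cyl, mem_ball]

/-- The open exits from a cylinder, summed over base vertices, by the group part of their ends. -/
noncomputable def kernelB (nb : FG α × O → ι → FG α × O) (n : ℕ) (p : ℝ) (g : FG α) : ℝ :=
  p * ∑ o : O, ∑ a ∈ cyl n, ∑ j : ι,
    if nb a j ∉ (cyl n : Finset (FG α × O)) ∧ (nb a j).1 = g then
      tauIn nb (cyl n) p (1, o) a else 0

/-- The words of a list of vertices in one coordinate. -/
def wordsOf (t : κ) (zs : List (FG α × O)) : List (List (α t × Bool)) :=
  zs.map fun z => (z.1 t).toWord

/-- In every coordinate the common prefixes of consecutive points are monotone along the list. -/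
def Level (zs : List (FG α × O)) : Prop :=
  ∀ t, asc (wordsOf t zs) = 0 ∨ desc (wordsOf t zs) = 0

open Classical in
/-- The level lists of `k` points in a cylinder. -/
noncomputable def goodChains (n k : ℕ) : Finset (List (FG α × O)) :=
  ((Fintype.piFinset fun _ : Fin k => (cyl n : Finset (FG α × O))).image List.ofFn).filter Level

end Vale.Agent.P165.FF
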