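import Mathlib

/-!
# Finite Ramsey theorem for triples and supersaturation

For every colouring of triples of `range N` by finitely many colours, a positive fraction of the
`k`-subsets have all triples of consecutive elements of one colour.
-/

namespace Vale.Agent.P165.FF

open Finset

variable {κ : Type} [Fintype κ] [DecidableEq κ]

/-- A large finite set has a colour class of any prescribed size. -/
theorem exists_class (g : ℕ → κ) (r : ℕ) (A : Finset ℕ) (hA : Fintype.card κ * r + 1 ≤ A.card) :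
    ∃ c, r ≤ (A.filter fun a => g a = c).card := by
  by_contra hc
  push Not at hc
  have h := card_eq_sum_card_fiberwise (s := A) (t := univ) (f := g) fun a _ => mem_univ _
  have : A.card ≤ Fintype.card κ * r := by
    rw [h]
    calc ∑ c, (A.filter fun a => g a = c).card ≤ ∑ _c : κ, r :=
          sum_le_sum fun c _ => (hc c).le
      _ = Fintype.card κ * r := by simp
  omega

/-- End-homogeneous subsets for colourings of pairs. -/
theorem endHom_pairs (r : ℕ) : ∃ K, ∀ (f : ℕ → ℕ → κ) (A : Finset ℕ), K ≤ A.card →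
    ∃ I ⊆ A, I.card = r ∧ ∀ a ∈ I, ∀ b ∈ I, ∀ d ∈ I, a < b → a < d → f a b = f a d := by
  induction r with
  | zero => exact ⟨0, fun f A _ => ⟨∅, empty_subset _, rfl, by simp⟩⟩
  | succ r ih =>
    obtain ⟨K, hK⟩ := ih
    refine ⟨Fintype.card κ * K + 2, fun f A hA => ?_⟩
    have hne : A.Nonempty := card_pos.1 (by omega)
    set a := A.min' hne with ha
    have haA : a ∈ A := A.min'_mem hne
    obtain ⟨c, hc⟩ := exists_class (f a) K (A.erase a) (by
      rw [card_erase_of_mem haA]; omega)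
    obtain ⟨I, hI, hcard, hhom⟩ := hK f _ hc
    have hIA : ∀ b ∈ I, b ∈ A ∧ a < b ∧ f a b = c := fun b hb => by
      obtain ⟨h1, h2⟩ := mem_filter.1 (hI hb)
      obtain ⟨h3, h4⟩ := mem_erase.1 h1
      exact ⟨h4, lt_of_le_of_ne (A.min'_le b h4) (Ne.symm h3), h2⟩
    have haI : a ∉ I := fun h => (hIA a h).2.1.false
    refine ⟨insert a I, insert_subset haA fun b hb => (hIA b hb).1, ?_, ?_⟩
    · rw [card_insert_of_notMem haI, hcard]
    · intro x hx b hb d hd hxb hxd
      rcases mem_insert.1 hx with rfl | hxI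
      · have hbI : b ∈ I := (mem_insert.1 hb).resolve_left hxb.ne'
        have hdI : d ∈ I := (mem_insert.1 hd).resolve_left hxd.ne'
        rw [(hIA b hbI).2.2, (hIA d hdI).2.2]
      · have hbI : b ∈ I := (mem_insert.1 hb).resolve_left (((hIA x hxI).2.1).trans hxb).ne'
        have hdI : d ∈ I := (mem_insert.1 hd).resolve_left (((hIA x hxI).2.1).trans hxd).ne'
        exact hhom x hxI b hbI d hdI hxb hxd

/-- Ramsey's theorem for pairs. -/
theorem ramsey_pairs (k : ℕ) : ∃ K, ∀ (f : ℕ → ℕ → κ) (A : Finset ℕ), K ≤ A.card →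
    ∃ I ⊆ A, I.card = k ∧ ∀ a ∈ I, ∀ b ∈ I, ∀ a' ∈ I, ∀ b' ∈ I,
      a < b → a' < b' → f a b = f a' b' := by
  obtain ⟨K, hK⟩ := endHom_pairs (κ := κ) (Fintype.card κ * k + 1)
  refine ⟨K, fun f A hA => ?_⟩
  obtain ⟨J, hJA, hJ, hhom⟩ := hK f A hA
  let g : ℕ → κ := fun a =>
    if h : (J.filter fun b => a < b).Nonempty then f a ((J.filter fun b => a < b).min' h)
    else f a a
  have hg : ∀ a ∈ J, ∀ b ∈ J, a < b → f a b = g a := by
    intro a ha b hb hab
    have h : (J.filter fun b => a < b).Nonempty := ⟨b, mem_filter.2 ⟨hb, hab⟩⟩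
    have h' := mem_filter.1 (min'_mem _ h)
    simp only [g, dif_pos h]
    exact hhom a ha b hb _ h'.1 hab h'.2
  obtain ⟨c, hc⟩ := exists_class g k J (by omega)
  obtain ⟨I, hI, hIc⟩ := exists_subset_card_eq hc
  have hIJ : ∀ a ∈ I, a ∈ J ∧ g a = c := fun a ha => mem_filter.1 (hI ha)
  refine ⟨I, fun a ha => hJA (hIJ a ha).1, hIc, ?_⟩
  intro a ha b hb a' ha' b' hb' hab hab'
  rw [hg a (hIJ a ha).1 b (hIJ b hb).1 hab, hg a' (hIJ a' ha').1 b' (hIJ b' hb').1 hab',
    (hIJ a ha).2, (hIJ a' ha').2]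

/-- End-homogeneous subsets for colourings of triples. -/
theorem endHom_triples [Nonempty κ] (r : ℕ) : ∃ K, ∀ (f : ℕ → ℕ → ℕ → κ) (A : Finset ℕ),
    K ≤ A.card → ∃ I ⊆ A, I.card = r ∧ ∀ a ∈ I, ∀ b ∈ I, ∀ d ∈ I, ∀ b' ∈ I, ∀ d' ∈ I,
      a < b → b < d → a < b' → b' < d' → f a b d = f a b' d' := by
  induction r with
  | zero => exact ⟨0, fun f A _ => ⟨∅, empty_subset _, rfl, by simp⟩⟩
  | succ r ih =>
    obtain ⟨K, hK⟩ := ih
    obtain ⟨K', hK'⟩ := ramsey_pairs (κ := κ) K
    refine ⟨K' + 1, fun f A hA => ?_⟩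
    have hne : A.Nonempty := card_pos.1 (by omega)
    set a := A.min' hne with ha
    have haA : a ∈ A := A.min'_mem hne
    obtain ⟨B, hBA, hB, hBhom⟩ := hK' (f a) (A.erase a) (by
      rw [card_erase_of_mem haA]; omega)
    obtain ⟨I, hI, hcard, hhom⟩ := hK f B hB.ge
    have hIA : ∀ b ∈ I, b ∈ A ∧ a < b := fun b hb => by
      obtain ⟨h3, h4⟩ := mem_erase.1 (hBA (hI hb))
      exact ⟨h4, lt_of_le_of_ne (A.min'_le b h4) (Ne.symm h3)⟩
    have haI : a ∉ I := fun h => (hIA a h).2.false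
    refine ⟨insert a I, insert_subset haA fun b hb => (hIA b hb).1, ?_, ?_⟩
    · rw [card_insert_of_notMem haI, hcard]
    · intro x hx b hb d hd b' hb' d' hd' hxb hbd hxb' hbd'
      have mem : ∀ y ∈ insert a I, x < y → y ∈ I := by
        intro y hy hxy
        rcases mem_insert.1 hy with rfl | h
        · rcases mem_insert.1 hx with rfl | hxI
          · exact absurd hxy (lt_irrefl _)
          · exact absurd ((hIA x hxI).2.trans hxy) (lt_irrefl _)
        · exact h
      have hbI := mem b hb hxb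
      have hdI := mem d hd (hxb.trans hbd)
      have hbI' := mem b' hb' hxb'
      have hdI' := mem d' hd' (hxb'.trans hbd')
      rcases mem_insert.1 hx with rfl | hxI
      · exact hBhom b (hI hbI) d (hI hdI) b' (hI hbI') d' (hI hdI') hbd hbd'
      · exact hhom x hxI b hbI d hdI b' hbI' d' hdI' hxb hbd hxb' hbd'

/-- Ramsey's theorem for triples. -/
theorem ramsey_triples [Nonempty κ] (k : ℕ) : ∃ K, ∀ (f : ℕ → ℕ → ℕ → κ) (A : Finset ℕ),
    K ≤ A.card → ∃ I ⊆ A, I.card = k ∧ ∃ c, ∀ a ∈ I, ∀ b ∈ I, ∀ d ∈ I,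
      a < b → b < d → f a b d = c := by
  obtain ⟨R, hR⟩ := ramsey_pairs (κ := κ) (k + 1)
  obtain ⟨K, hK⟩ := endHom_triples (κ := κ) R
  refine ⟨K, fun f A hA => ?_⟩
  obtain ⟨J, hJA, hJ, hhom⟩ := hK f A hA
  let g : ℕ → ℕ → κ := fun a b =>
    if h : (J.filter fun d => b < d).Nonempty then f a b ((J.filter fun d => b < d).min' h)
    else Classical.arbitrary κ
  have hg : ∀ a ∈ J, ∀ b ∈ J, ∀ d ∈ J, a < b → b < d → f a b d = g a b := by
    intro a ha b hb d hd hab hbd
    have h : (J.filter fun d => b < d).Nonempty := ⟨d, mem_filter.2 ⟨hd, hbd⟩⟩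
    have h' := mem_filter.1 (min'_mem _ h)
    simp only [g, dif_pos h]
    exact hhom a ha b hb d hd b hb _ h'.1 hab hbd hab h'.2
  obtain ⟨I, hIJ, hI, hIhom⟩ := hR g J hJ.ge
  obtain ⟨I', hI'I, hI'⟩ := exists_subset_card_eq (show k ≤ I.card by omega)
  refine ⟨I', fun a ha => hJA (hIJ (hI'I ha)), hI', ?_⟩
  by_cases hex : ∃ a ∈ I', ∃ b ∈ I', a < b
  · obtain ⟨a, ha, b, hb, hab⟩ := hex
    refine ⟨g a b, fun a' ha' b' hb' d' hd' h1 h2 => ?_⟩
    rw [hg a' (hIJ (hI'I ha')) b' (hIJ (hI'I hb')) d' (hIJ (hI'I hd')) h1 h2,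
      hIhom a' (hI'I ha') b' (hI'I hb') a (hI'I ha) b (hI'I hb) h1 hab]
  · exact ⟨Classical.arbitrary κ, fun a ha b hb _ _ hab _ => absurd ⟨a, ha, b, hb, hab⟩ hex⟩

/-- All triples of consecutive entries of `l` have the same colour. -/
def Steady {q : ℕ} (col : ℕ → ℕ → ℕ → Fin q) (l : List ℕ) : Prop :=
  ∃ c, ∀ i, ∀ a ∈ l[i]?, ∀ b ∈ l[i+1]?, ∀ d ∈ l[i+2]?, col a b d = c

/-- Supersaturation: if every large set has a `P`-subset of size `k`, then a positive fraction
of the `k`-subsets satisfy `P`. -/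
theorem supersaturation {P : Finset ℕ → Prop} [DecidablePred P] {k K : ℕ} (hkK : k ≤ K)
    {A : Finset ℕ} (hKA : K ≤ A.card)
    (h : ∀ B ⊆ A, B.card = K → ∃ I ⊆ B, I.card = k ∧ P I) :
    A.card.choose k ≤ K.choose k * ((A.powersetCard k).filter P).card := by
  set G := (A.powersetCard k).filter P with hG
  have hcover : A.powersetCard K ⊆ G.biUnion fun I => (A.powersetCard K).filter (I ⊆ ·) := by
    intro B hB
    obtain ⟨hBA, hBc⟩ := mem_powersetCard.1 hB
    obtain ⟨I, hIB, hI, hgood⟩ := h B hBA hBc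
    exact mem_biUnion.2 ⟨I, mem_filter.2 ⟨mem_powersetCard.2 ⟨hIB.trans hBA, hI⟩, hgood⟩,
      mem_filter.2 ⟨hB, hIB⟩⟩
  have hfib : ∀ I ∈ G, ((A.powersetCard K).filter (I ⊆ ·)).card ≤ (A.card - k).choose (K - k) := by
    intro I hI
    obtain ⟨hIA, hIc⟩ := mem_powersetCard.1 (mem_filter.1 hI).1
    rw [← hIc, ← card_sdiff_of_subset hIA, ← card_powersetCard]
    refine card_le_card_of_injOn (fun B => B \ I) ?_ ?_
    · intro B hB
      obtain ⟨hB1, hIB⟩ := mem_filter.1 hB
      obtain ⟨hBA, hBc⟩ := mem_powersetCard.1 hB1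
      exact mem_coe.2 (mem_powersetCard.2
        ⟨sdiff_subset_sdiff hBA Subset.rfl, by rw [card_sdiff_of_subset hIB, hBc]⟩)
    · intro B hB B' hB' he
      rw [← union_sdiff_of_subset (mem_filter.1 hB).2, ← union_sdiff_of_subset (mem_filter.1 hB').2]
      exact congrArg (I ∪ ·) he
  have hle : A.card.choose K ≤ G.card * (A.card - k).choose (K - k) := by
    rw [← card_powersetCard]
    exact (card_le_card hcover).trans (card_biUnion_le.trans
      ((sum_le_sum hfib).trans (by rw [sum_const, smul_eq_mul])))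
  have hpos : 0 < (A.card - k).choose (K - k) := Nat.choose_pos (by omega)
  refine Nat.le_of_mul_le_mul_right ?_ hpos
  rw [← Nat.choose_mul hkK, mul_comm (A.card.choose K), mul_assoc]
  exact Nat.mul_le_mul_left _ hle

open Classical in
/-- A positive fraction of all `k`-subsets of `range N` is steady. -/
theorem many_steady (k q : ℕ) : ∃ c : ℝ, 0 < c ∧ ∃ N0 : ℕ, ∀ N ≥ N0, ∀ col : ℕ → ℕ → ℕ → Fin q,
    c * (N : ℝ) ^ k ≤
      (((range N).powersetCard k).filter fun I => Steady col (I.sort (· ≤ ·))).card := by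
  rcases Nat.eq_zero_or_pos q with rfl | hq
  · exact ⟨1, one_pos, 0, fun N _ col => (col 0 0 0).elim0⟩
  have : Nonempty (Fin q) := ⟨⟨0, hq⟩⟩
  obtain ⟨K₀, hK₀⟩ := ramsey_triples (κ := Fin q) k
  set K := max K₀ k with hKdef
  have hkK : k ≤ K := le_max_right _ _
  refine ⟨1 / (2 ^ k * k.factorial * (K.choose k : ℝ)), ?_, 2 * K, fun N hN col => ?_⟩
  · have : (0 : ℝ) < K.choose k := by exact_mod_cast Nat.choose_pos hkK
    positivity
  set G := ((range N).powersetCard k).filter fun I => Steady col (I.sort (· ≤ ·)) with hG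
  have hsat : N.choose k ≤ K.choose k * G.card := by
    have := supersaturation (P := fun I => Steady col (I.sort (· ≤ ·))) hkK
      (A := range N) (by rw [card_range]; omega) fun B _ hB => by
      obtain ⟨I, hIB, hI, c, hc⟩ := hK₀ col B (by rw [hB]; exact le_max_left _ _)
      refine ⟨I, hIB, hI, c, fun i a ha b hb d hd => ?_⟩
      obtain ⟨h1, rfl⟩ := List.getElem?_eq_some_iff.1 ha
      obtain ⟨h2, rfl⟩ := List.getElem?_eq_some_iff.1 hb
      obtain ⟨h3, rfl⟩ := List.getElem?_eq_some_iff.1 hd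
      have hs := (sortedLT_sort I).strictMono_get
      refine hc _ ?_ _ ?_ _ ?_ (hs (a := ⟨i, h1⟩) (b := ⟨i + 1, h2⟩) (Nat.lt_succ_self i))
        (hs (a := ⟨i + 1, h2⟩) (b := ⟨i + 2, h3⟩) (Nat.lt_succ_self _))
      all_goals exact (Finset.mem_sort _).1 (List.getElem_mem _)
    rw [card_range] at this
    exact this
  have hpow : (((N + 1 - k : ℕ) : ℝ)) ^ k / (k.factorial : ℝ) ≤ N.choose k :=
    Nat.pow_le_choose k N
  have hhalf : (N : ℝ) / 2 ≤ ((N + 1 - k : ℕ) : ℝ) := by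
    rw [Nat.cast_sub (by omega)]
    have : (2 : ℝ) * k ≤ N := by exact_mod_cast (show 2 * k ≤ N by omega)
    push_cast
    linarith
  have hK : (0 : ℝ) < K.choose k := by exact_mod_cast Nat.choose_pos hkK
  have hsatR : (N.choose k : ℝ) ≤ K.choose k * G.card := by exact_mod_cast hsat
  have h1 : ((N : ℝ) / 2) ^ k / (k.factorial : ℝ) ≤ K.choose k * G.card :=
    le_trans (le_trans (div_le_div_of_nonneg_right
      (pow_le_pow_left₀ (by positivity) hhalf k) (by positivity)) hpow) hsatR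
  calc 1 / (2 ^ k * k.factorial * (K.choose k : ℝ)) * (N : ℝ) ^ k
      = ((N : ℝ) / 2) ^ k / (k.factorial : ℝ) / K.choose k := by rw [div_pow]; field_simp
    _ ≤ _ := by rw [div_le_iff₀ hK]; linarith

end Vale.Agent.P165.FF
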