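import Vale.Agent.P165.FF.Chain
import Vale.Agent.P165.FF.Ramsey

/-!
# A path to the rim of a cylinder yields many level chains
-/

namespace Vale.Agent.P165.FF

open Finset

section Walks

variable {V : Type} {H : SimpleGraph V}

/-- The first vertex of a walk at height at least `b`. -/
def firstUp (ρ : V → ℕ) (b : ℕ) {x y : V} (w : H.Walk x y) : V :=
  (w.support.find? fun v => decide (b ≤ ρ v)).getD y

/-- Cutting a walk at the first crossing of a height. -/
theorem hit_split (ρ : V → ℕ) (Q : Set V) (L : ℕ)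
    (hstep : ∀ u v, H.Adj u v → ρ v ≤ ρ u + L ∧ v ∈ Q) (b : ℕ) :
    ∀ {x y : V} (w : H.Walk x y), x ∈ Q → b ≤ ρ y → ρ x < b + L →
      ∃ (z : V) (w1 : H.Walk x z) (w2 : H.Walk z y), w.edges = w1.edges ++ w2.edges ∧
        b ≤ ρ z ∧ ρ z < b + L ∧ z ∈ Q ∧ firstUp ρ b w = z ∧
          ∀ b', b + L ≤ b' → firstUp ρ b' w = firstUp ρ b' w2 := by
  intro x y w hx hy hxb
  induction w with
  | @nil u => exact ⟨u, .nil, .nil, by simp, hy, hxb, hx, by simp [firstUp, hy], fun b' _ => rfl⟩
  | @cons u v z hadj q ih =>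
    by_cases hu : b ≤ ρ u
    · exact ⟨u, .nil, .cons hadj q, by simp, hu, hxb, hx, by simp [firstUp, hu], fun b' _ => rfl⟩
    have hv := hstep u v hadj
    obtain ⟨c, w1, w2, h1, h2, h3, h4, h5, h6⟩ := ih hv.2 hy (by omega)
    refine ⟨c, .cons hadj w1, w2, by simp [h1], h2, h3, h4, ?_, fun b' hb' => ?_⟩
    · rw [← h5]
      simp [firstUp, hu]
    · rw [← h6 b' hb']
      have : ¬ b' ≤ ρ u := by omega
      simp [firstUp, this]

theorem asc_eq_zero {β : Type} [DecidableEq β] : ∀ l : List (List (β × Bool)),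
    (∀ i, ∀ a ∈ l[i]?, ∀ b ∈ l[i + 1]?, ∀ d ∈ l[i + 2]?, ¬ lcp a b < lcp b d) → asc l = 0
  | [], _ => rfl
  | [_], _ => rfl
  | [_, _], _ => rfl
  | a :: b :: c :: t, h => by
      have h0 := h 0 a (by simp) b (by simp) c (by simp)
      have ih := asc_eq_zero (b :: c :: t) fun i a ha b hb d hd =>
        h (i + 1) a (by simpa using ha) b (by simpa using hb) d (by simpa using hd)
      rw [asc, if_neg h0, ih]

theorem desc_eq_zero {β : Type} [DecidableEq β] : ∀ l : List (List (β × Bool)),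
    (∀ i, ∀ a ∈ l[i]?, ∀ b ∈ l[i + 1]?, ∀ d ∈ l[i + 2]?, ¬ lcp b d < lcp a b) → desc l = 0
  | [], _ => rfl
  | [_], _ => rfl
  | [_, _], _ => rfl
  | a :: b :: c :: t, h => by
      have h0 := h 0 a (by simp) b (by simp) c (by simp)
      have ih := desc_eq_zero (b :: c :: t) fun i a ha b hb d hd =>
        h (i + 1) a (by simpa using ha) b (by simpa using hb) d (by simpa using hd)
      rw [desc, if_neg h0, ih]

theorem chain_of_walk {V : Type} [DecidableEq V] {η : Finset (Sym2 V)} (ρ : V → ℕ) (Q : Set V)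
    (L : ℕ) (hstep : ∀ u v, (SimpleGraph.fromEdgeSet (η : Set (Sym2 V))).Adj u v →
      ρ v ≤ ρ u + L ∧ v ∈ Q) (b : ℕ → ℕ) (hb : ∀ r r', r < r' → b r + L ≤ b r') :
    ∀ (rs : List ℕ), rs.Pairwise (· < ·) → ∀ {x y : V}
      (w : (SimpleGraph.fromEdgeSet (η : Set (Sym2 V))).Walk x y), x ∈ Q →
      (∀ r ∈ rs, ρ x < b r + L ∧ b r ≤ ρ y) → w.edges.Nodup →
        chainEv x (rs.map fun r => firstUp ρ (b r) w) y w.edges.toFinset := by
  intro rs
  induction rs with
  | nil =>
    intro _ x y w _ _ _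
    exact cl_of_walk w fun e he => List.mem_toFinset.2 he
  | cons r rest ih =>
    intro hsort x y w hx hρ hnd
    rw [List.pairwise_cons] at hsort
    obtain ⟨z, w1, w2, h1, h2, h3, h4, h5, h6⟩ :=
      hit_split ρ Q L hstep (b r) w hx (hρ r (by simp)).2 (hρ r (by simp)).1
    rw [List.map_cons, h5]
    rw [h1, List.nodup_append] at hnd
    have hmap : rest.map (fun r' => firstUp ρ (b r') w)
        = rest.map (fun r' => firstUp ρ (b r') w2) :=
      List.map_congr_left fun r' hr' => h6 _ (hb r r' (hsort.1 r' hr'))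
    rw [hmap]
    refine ⟨w1.edges.toFinset, w2.edges.toFinset, ?_, ?_, ?_,
      cl_of_walk w1 fun e he => List.mem_toFinset.2 he,
      ih hsort.2 w2 h4 (fun r' hr' => ⟨?_, (hρ r' (by simp [hr'])).2⟩) hnd.2.1⟩
    · intro e he; rw [List.mem_toFinset] at he ⊢; simp [h1, he]
    · intro e he; rw [List.mem_toFinset] at he ⊢; simp [h1, he]
    · exact disjoint_left.2 fun e he he' =>
        hnd.2.2 e (List.mem_toFinset.1 he) e (List.mem_toFinset.1 he') rfl
    · have := hb r r' (hsort.1 r' hr'); omega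

end Walks

variable {κ : Type} [Fintype κ] [DecidableEq κ] {α : κ → Type} [∀ t, DecidableEq (α t)]
  [∀ t, Fintype (α t)] {O ι : Type} [DecidableEq O] [Fintype O] [Fintype ι]
  {G : SimpleGraph (FG α × O)} {nb : FG α × O → ι → FG α × O}

/-- The height of a vertex: the longest coordinate. -/
def height (x : FG α × O) : ℕ := univ.sup fun t => (x.1 t).norm

theorem path_count (hl : Labelling G nb) {L : ℕ} (hL1 : 1 ≤ L)
    (hL : ∀ x y : FG α × O, G.Adj x y → ∀ t, ((x.1⁻¹ * y.1) t).norm ≤ L) (k : ℕ) :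
    ∃ c : ℝ, 0 < c ∧ ∃ N0 : ℕ, ∀ n N, N0 ≤ N → 3 * L * (N + 1) ≤ n →
      ∀ p, 0 ≤ p → p ≤ 1 → ∀ o, ∀ a ∈ (cyl n : Finset (FG α × O)),
        (∃ t, n < (a.1 t).norm + L) →
        c * (N : ℝ) ^ k * tauIn nb (cyl n) p (1, o) a ≤
          ∑ zs ∈ goodChains n k, chainVal nb (cyl n) p (1, o) zs a := by
  classical
  let e := Fintype.equivFin (κ → Bool)
  obtain ⟨c, hc, N0, hN0⟩ := many_steady k (Fintype.card (κ → Bool))
  refine ⟨c, hc, N0, fun n N hN hn p h0 h1 o a ha ⟨t0, ht0⟩ => ?_⟩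
  rw [tauIn_eq, ← avg_mul]
  refine le_trans (avg_mono _ h0 h1 (g := fun η =>
    ∑ zs ∈ goodChains n k, ind (chainEv (1, o) zs a η)) fun η hη => ?_) ?_
  swap
  · rw [avg_sum]
    exact sum_le_sum fun zs _ => avg_chain_le _ h0 h1 _ _ _
  have hnn : 0 ≤ ∑ zs ∈ goodChains n k, ind (chainEv ((1 : FG α), o) zs a η) :=
    sum_nonneg fun _ _ => ind_nonneg _
  by_cases hcl : cl η (1, o) a
  swap
  · rw [show ind (cl η (1, o) a) = 0 from if_neg hcl, mul_zero]; exact hnn
  rw [show ind (cl η (1, o) a) = 1 from if_pos hcl, mul_one]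
  obtain ⟨π, hπ⟩ := SimpleGraph.Reachable.exists_isPath hcl
  set Q : Set (FG α × O) := ↑(cyl n : Finset (FG α × O))
  have hstep : ∀ u v, (SimpleGraph.fromEdgeSet (η : Set (Sym2 (FG α × O)))).Adj u v →
      height v ≤ height u + L ∧ v ∈ Q := by
    intro u v huv
    have hmem := (inE_iff hl).1 (hη ((SimpleGraph.fromEdgeSet_adj _).1 huv).1)
    refine ⟨Finset.sup_le fun t _ => ?_, hmem.2 v (Sym2.mem_mk_right u v)⟩
    have h2 := hL u v hmem.1 t
    have h3 : (u.1 t).norm ≤ height u := le_sup (f := fun t => (u.1 t).norm) (mem_univ t)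
    have h4 := FreeGroup.norm_mul_le (u.1 t) ((u.1⁻¹ * v.1) t)
    rw [Pi.mul_apply, Pi.inv_apply, mul_inv_cancel_left] at h4
    rw [Pi.mul_apply, Pi.inv_apply] at h2
    omega
  set b : ℕ → ℕ := fun r => 3 * L * (r + 1) with hb
  have hb2 : ∀ r r', r < r' → b r + L ≤ b r' := fun r r' h => by
    have : 3 * L * (r + 2) ≤ 3 * L * (r' + 1) := Nat.mul_le_mul_left _ (by omega)
    simp only [hb]
    nlinarith
  have hx0 : height ((1 : FG α), o) = 0 := by simp [height]
  have hxQ : ((1 : FG α), o) ∈ Q := by simp [Q, mem_cyl]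
  have hay : ∀ r < N, b r ≤ height a := fun r hr => by
    have h1' : (a.1 t0).norm ≤ height a := le_sup (f := fun t => (a.1 t).norm) (mem_univ t0)
    have : 3 * L * (r + 1) + L ≤ 3 * L * (N + 1) := by nlinarith
    simp only [hb]
    omega
  let z : ℕ → FG α × O := fun r => firstUp height (b r) π
  have hz : ∀ r < N, z r ∈ Q ∧ b r ≤ height (z r) ∧ height (z r) < b r + L := fun r hr => by
    obtain ⟨c, w1, w2, -, h2, h3, h4, h5, -⟩ :=
      hit_split height Q L hstep (b r) π hxQ (hay r hr) (by rw [hx0]; omega)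
    exact ⟨by simp only [z, h5]; exact h4, by simp only [z, h5]; exact h2,
      by simp only [z, h5]; exact h3⟩
  let col : ℕ → ℕ → ℕ → Fin (Fintype.card (κ → Bool)) := fun i j l => e fun t =>
    decide (lcp ((z i).1 t).toWord ((z j).1 t).toWord < lcp ((z j).1 t).toWord ((z l).1 t).toWord)
  refine (hN0 N hN col).trans ?_
  simp only [ind, sum_boole]
  refine Nat.cast_le.2 (card_le_card_of_injOn (fun I => (I.sort (· ≤ ·)).map z) ?_ ?_)
  · intro I hI
    rw [mem_coe, mem_filter, mem_powersetCard] at hI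
    obtain ⟨⟨hIN, hIk⟩, cval, hst⟩ := hI
    set rs := I.sort (· ≤ ·) with hrs
    have hmem : ∀ r ∈ rs, r < N := fun r hr =>
      mem_range.1 (hIN ((Finset.mem_sort _).1 hr))
    have hsort : rs.Pairwise (· < ·) := (Finset.sortedLT_sort I).pairwise
    have hlen : rs.length = k := by rw [hrs, Finset.length_sort, hIk]
    rw [mem_coe, mem_filter]
    refine ⟨mem_filter.2 ⟨mem_image.2 ⟨fun i : Fin k => z (rs[i.1]'(by omega)), ?_, ?_⟩, ?_⟩, ?_⟩
    · rw [Fintype.mem_piFinset]
      exact fun i => mem_coe.1 (hz _ (hmem _ (List.getElem_mem _))).1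
    · refine List.ext_getElem (by simp [hrs, hIk]) fun i h1' h2' => ?_
      simp [hrs]
    · intro t
      rcases Bool.eq_false_or_eq_true (e.symm cval t) with hbit | hbit
      · refine Or.inr (desc_eq_zero _ fun i a' ha' b' hb' d' hd' => ?_)
        simp only [wordsOf, List.getElem?_map, Option.mem_def, Option.map_eq_some_iff] at ha' hb' hd'
        obtain ⟨_, ⟨ra, hra, rfl⟩, rfl⟩ := ha'
        obtain ⟨_, ⟨rb, hrb, rfl⟩, rfl⟩ := hb'
        obtain ⟨_, ⟨rd, hrd, rfl⟩, rfl⟩ := hd'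
        have hc' := congrFun (congrArg e.symm (hst i ra hra rb hrb rd hrd)) t
        simp only [col, Equiv.symm_apply_apply, hbit, decide_eq_true_eq] at hc'
        omega
      · refine Or.inl (asc_eq_zero _ fun i a' ha' b' hb' d' hd' => ?_)
        simp only [wordsOf, List.getElem?_map, Option.mem_def, Option.map_eq_some_iff] at ha' hb' hd'
        obtain ⟨_, ⟨ra, hra, rfl⟩, rfl⟩ := ha'
        obtain ⟨_, ⟨rb, hrb, rfl⟩, rfl⟩ := hb'
        obtain ⟨_, ⟨rd, hrd, rfl⟩, rfl⟩ := hd'
        have hc' := congrFun (congrArg e.symm (hst i ra hra rb hrb rd hrd)) t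
        simp only [col, Equiv.symm_apply_apply, hbit, decide_eq_false_iff_not] at hc'
        exact hc'
    · refine inc_chainEv _ _ _ π.edges.toFinset η (fun f hf => ?_)
        (chain_of_walk height Q L hstep b hb2 rs hsort π hxQ
          (fun r hr => ⟨by rw [hx0]; omega, hay r (hmem r hr)⟩) hπ.isTrail.edges_nodup)
      have := π.edges_subset_edgeSet (List.mem_toFinset.1 hf)
      rw [SimpleGraph.edgeSet_fromEdgeSet] at this
      exact this.1
  · intro I hI J hJ hIJ
    rw [mem_coe, mem_filter, mem_powersetCard] at hI hJ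
    have hdec : ∀ K : Finset ℕ, K ⊆ range N →
        ((K.sort (· ≤ ·)).map z).map (fun v => height v / (3 * L) - 1) = K.sort (· ≤ ·) := by
      intro K hK
      rw [List.map_map]
      conv_rhs => rw [← List.map_id (K.sort (· ≤ ·))]
      refine List.map_congr_left fun r hr => ?_
      obtain ⟨-, h2, h3⟩ := hz r (mem_range.1 (hK ((Finset.mem_sort _).1 hr)))
      have : height (z r) / (3 * L) = r + 1 := by
        refine Nat.div_eq_of_lt_le ?_ ?_
        · simp only [hb] at h2; nlinarith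
        · simp only [hb] at h3; nlinarith
      simp [this]
    have h := congrArg (fun l => (l.map fun v => height v / (3 * L) - 1).toFinset) hIJ
    simp only [hdec I hI.1.1, hdec J hJ.1.1, Finset.sort_toFinset] at h
    exact h

end Vale.Agent.P165.FF
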